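import Vale.Agent.P022.H121.Lim

/-!
# `SysOK` gives a character of `𝕋₂(N)`
-/

open UpperHalfPlane Matrix CongruenceSubgroup
open scoped ModularForm MatrixGroups TensorProduct

noncomputable section

namespace Vale.Agent.P022

section

variable (N : ℕ) [NeZero N]

theorem range_opGen (k : ℕ) : Set.range (opGen N k) = heckeGens N k := by
  ext x
  constructor
  · rintro ⟨⟨⟨l, hl, h⟩, b⟩, rfl⟩
    cases b
    · exact ⟨l, hl, h, Or.inl rfl⟩
    · exact ⟨l, hl, h, Or.inr rfl⟩
  · rintro ⟨l, hl, h, rfl | rfl⟩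
    · exact ⟨⟨⟨l, hl, h⟩, false⟩, rfl⟩
    · exact ⟨⟨⟨l, hl, h⟩, true⟩, rfl⟩

theorem opsHom_range (k : ℕ) : (opsHom N k).range = heckeAlg N k := by
  rw [heckeAlg, ← range_opGen, Algebra.adjoin_range_eq_range_freeAlgebra_lift]
  rfl

theorem opsHom_mem (k : ℕ) (P : FreeAlgebra ℤ (Gen N)) : opsHom N k P ∈ heckeAlg N k := by
  rw [← opsHom_range]
  exact ⟨P, rfl⟩

/-- Evaluation of noncommutative polynomials in the Hecke algebra. -/
def piHA (k : ℕ) : FreeAlgebra ℤ (Gen N) →+* HA N k where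
  toFun P := ⟨opsHom N k P, opsHom_mem N k P⟩
  map_one' := Subtype.ext (map_one (opsHom N k))
  map_mul' x y := Subtype.ext (map_mul (opsHom N k) x y)
  map_zero' := Subtype.ext (map_zero (opsHom N k))
  map_add' x y := Subtype.ext (map_add (opsHom N k) x y)

theorem piHA_surjective (k : ℕ) : Function.Surjective (piHA N k) := by
  rintro ⟨x, hx⟩
  rw [← opsHom_range] at hx
  obtain ⟨P, hP⟩ := hx
  exact ⟨P, Subtype.ext hP⟩

theorem restrBig_opsHom (k : ℕ) (P : FreeAlgebra ℤ (Gen N)) :
    restrBig N k (opsHom N (k + 1) P) = opsHom N k P := by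
  have h : (restrBig N k).comp (opsHom N (k + 1)) = opsHom N k := by
    apply FreeAlgebra.hom_ext
    funext x
    simp only [opsHom, Function.comp_apply, AlgHom.comp_apply, FreeAlgebra.lift_ι_apply]
    obtain ⟨⟨l, hl, h⟩, b⟩ := x
    cases b <;> rfl
  exact DFunLike.congr_fun h P

theorem restr_piHA (k : ℕ) (P : FreeAlgebra ℤ (Gen N)) :
    restr N k (piHA N (k + 1) P) = piHA N k P :=
  Subtype.ext (restrBig_opsHom N k P)

theorem piHA_eq_zero {k : ℕ} {P : FreeAlgebra ℤ (Gen N)} (h : piHA N k P = 0) :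
    opsHom N k P = 0 := congrArg Subtype.val h

end

/-- Main theorem on limits. -/
theorem main : Main_statement := by
  intro v E _ _ _ i hi N _ t d htd hsys
  have hu := isUltra E
  have hval : ∀ P, i (evHom N t d P) = evHom N (fun l => i (t l)) (fun l => i (d l)) P := by
    intro P
    have h : (i.toIntAlgHom).comp (evHom N t d) =
        evHom N (fun l => i (t l)) (fun l => i (d l)) := by
      apply FreeAlgebra.hom_ext
      funext x
      simp only [evHom, Function.comp_apply, AlgHom.comp_apply, FreeAlgebra.lift_ι_apply]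
      obtain ⟨⟨l, hl, h⟩, b⟩ := x
      cases b <;> rfl
    exact DFunLike.congr_fun h P
  have hev : ∀ P, ‖evHom N t d P‖ ≤ 1 := by
    intro P
    induction P using FreeAlgebra.induction with
    | grade0 r =>
      rw [AlgHom.commutes]
      have h : (algebraMap ℤ E r) = algebraMap ℚ_[2] E r := by simp
      rw [h, norm_algebraMap']
      exact Padic.norm_int_le_one r
    | grade1 x =>
      rw [evHom, FreeAlgebra.lift_ι_apply]
      obtain ⟨⟨l, hl, h⟩, b⟩ := x
      cases b
      · exact (htd l hl h).1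
      · exact (htd l hl h).2
    | mul x y hx hy =>
      rw [map_mul, norm_mul]
      exact mul_le_one₀ hx (norm_nonneg _) hy
    | add x y hx hy =>
      rw [map_add]
      exact (IsUltrametricDist.norm_add_le_max _ _).trans (max_le hx hy)
  obtain ⟨lam, h1, h2, h3, h4⟩ := exists_limChar (HA N) (restr N) (piHA N)
    ((evHom N t d : FreeAlgebra ℤ (Gen N) →ₐ[ℤ] E) : FreeAlgebra ℤ (Gen N) →+* E)
    (piHA_surjective N) (restr_piHA N) hev (fun m => by
      obtain ⟨k, hk⟩ := hsys m
      refine ⟨k, fun P hP => ?_⟩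
      have := hk P (piHA_eq_zero N hP)
      rw [← hval, hi] at this
      exact this)
  refine ⟨lam, h1, h2, h3, fun l hl h => ⟨?_, ?_⟩⟩
  · have h5 := h4 (FreeAlgebra.ι ℤ (⟨⟨l, hl, h⟩, false⟩ : Gen N))
    have h6 : tT N l hl h = limMk (HA N) (restr N)
        (fun k => piHA N k (FreeAlgebra.ι ℤ (⟨⟨l, hl, h⟩, false⟩ : Gen N)))
        (fun k => restr_piHA N k _) := by
      apply Subtype.ext
      funext k
      change (1 : ℤ_[2]) ⊗ₜ[ℤ] elT N k l hl h = 1 ⊗ₜ[ℤ] piHA N k _
      congr 1
      apply Subtype.ext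
      change _ = opsHom N k _
      rw [opsHom, FreeAlgebra.lift_ι_apply]
      rfl
    refine (congrArg lam h6).trans (h5.trans ?_)
    change evHom N t d _ = _
    rw [evHom, FreeAlgebra.lift_ι_apply]
    rfl
  · have h5 := h4 (FreeAlgebra.ι ℤ (⟨⟨l, hl, h⟩, true⟩ : Gen N))
    have h6 : tS N l hl h = limMk (HA N) (restr N)
        (fun k => piHA N k (FreeAlgebra.ι ℤ (⟨⟨l, hl, h⟩, true⟩ : Gen N)))
        (fun k => restr_piHA N k _) := by
      apply Subtype.ext
      funext k
      change (1 : ℤ_[2]) ⊗ₜ[ℤ] elS N k l hl h = 1 ⊗ₜ[ℤ] piHA N k _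
      congr 1
      apply Subtype.ext
      change _ = opsHom N k _
      rw [opsHom, FreeAlgebra.lift_ι_apply]
      rfl
    refine (congrArg lam h6).trans (h5.trans ?_)
    change evHom N t d _ = _
    rw [evHom, FreeAlgebra.lift_ι_apply]
    rfl

end Vale.Agent.P022
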