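import Vale.Agent.P022.Sys

/-!
# Characters of inverse limits of `ℤ₂ ⊗ A_k`
-/

open scoped TensorProduct

noncomputable section

namespace Vale.Agent.P022

theorem isUltra (E : Type) [NormedField E] [NormedAlgebra ℚ_[2] E] : IsUltrametricDist E := by
  refine IsUltrametricDist.isUltrametricDist_of_forall_norm_natCast_le_one fun n => ?_
  have h : (n : E) = algebraMap ℚ_[2] E n := by simp
  rw [h, norm_algebraMap']
  exact_mod_cast Padic.norm_int_le_one (p := 2) n

section Limit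

variable (A : ℕ → Type) [∀ k, Ring (A k)] (f : ∀ k, A (k + 1) →+* A k)
variable {F : Type} [Ring F] (π : ∀ k, F →+* A k)

/-- Base change of `π k` to `ℤ₂`. -/
def pi2 (k : ℕ) : ℤ_[2] ⊗[ℤ] F →ₐ[ℤ_[2]] ℤ_[2] ⊗[ℤ] A k :=
  Algebra.TensorProduct.map (AlgHom.id ℤ_[2] ℤ_[2]) (π k).toIntAlgHom

theorem pi2_surjective {k : ℕ} (h : Function.Surjective (π k)) :
    Function.Surjective (pi2 A π k) := by
  intro x
  induction x using TensorProduct.induction_on with
  | zero => exact ⟨0, map_zero _⟩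
  | tmul c a =>
    obtain ⟨P, rfl⟩ := h a
    exact ⟨c ⊗ₜ P, by simp [pi2]⟩
  | add x y hx hy =>
    obtain ⟨x', rfl⟩ := hx
    obtain ⟨y', rfl⟩ := hy
    exact ⟨x' + y', map_add _ _ _⟩

theorem trans_pi2 (hf : ∀ k P, f k (π (k + 1) P) = π k P) (k : ℕ) (z : ℤ_[2] ⊗[ℤ] F) :
    trans A f k (pi2 A π (k + 1) z) = pi2 A π k z := by
  induction z using TensorProduct.induction_on with
  | zero => simp
  | tmul c a => simp [pi2, trans, hf]
  | add x y hx hy => rw [map_add, map_add, hx, hy, map_add]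

theorem pi2_le (hf : ∀ k P, f k (π (k + 1) P) = π k P) (x : limAlg A f) (z : ℤ_[2] ⊗[ℤ] F)
    {k K : ℕ} (hk : k ≤ K) (h : pi2 A π K z = x.1 K) : pi2 A π k z = x.1 k := by
  obtain ⟨j, rfl⟩ := Nat.exists_eq_add_of_le hk
  clear hk
  induction j with
  | zero => simpa using h
  | succ j ih =>
    apply ih
    rw [← trans_pi2 A f π hf, ← (mem_limAlg A f).1 x.2 (k + j)]
    exact congrArg _ h

variable {E : Type} [NormedField E] [NormedAlgebra ℚ_[2] E] (ev : F →+* E)

/-- The extension of `ev` to `ℤ₂ ⊗ F`. -/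
def ev2 : ℤ_[2] ⊗[ℤ] F →+* E :=
  (Algebra.TensorProduct.lift
    ((algebraMap ℚ_[2] E).comp (algebraMap ℤ_[2] ℚ_[2])).toIntAlgHom ev.toIntAlgHom
    (fun _ _ => Commute.all _ _)).toRingHom

theorem ev2_tmul (c : ℤ_[2]) (P : F) : ev2 ev (c ⊗ₜ P) = algebraMap ℚ_[2] E (c : ℚ_[2]) * ev P := by
  simp [ev2]

theorem norm_alg (c : ℤ_[2]) : ‖algebraMap ℚ_[2] E (c : ℚ_[2])‖ ≤ 1 := by
  rw [norm_algebraMap']
  exact c.norm_le_one

theorem norm_ev2 (hev : ∀ P, ‖ev P‖ ≤ 1) (z : ℤ_[2] ⊗[ℤ] F) : ‖ev2 ev z‖ ≤ 1 := by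
  have := isUltra E
  induction z using TensorProduct.induction_on with
  | zero => simp
  | tmul c a =>
    rw [ev2_tmul, norm_mul]
    exact mul_le_one₀ (norm_alg c) (norm_nonneg _) (hev a)
  | add x y hx hy =>
    rw [map_add]
    exact (IsUltrametricDist.norm_add_le_max _ _).trans (max_le hx hy)

theorem norm_ev2_ker {k : ℕ} (hs : Function.Surjective (π k)) {ε : ℝ} (hε : 0 ≤ ε)
    (h : ∀ P, π k P = 0 → ‖ev P‖ ≤ ε)
    (z : ℤ_[2] ⊗[ℤ] F) (hz : pi2 A π k z = 0) : ‖ev2 ev z‖ ≤ ε := by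
  have := isUltra E
  let g : F →ₗ[ℤ] A k := (π k).toIntAlgHom.toLinearMap
  have hex : Function.Exact (LinearMap.ker g).subtype g := LinearMap.exact_subtype_ker_map g
  have hex2 := lTensor_exact ℤ_[2] hex hs
  have hz' : LinearMap.lTensor ℤ_[2] g z = 0 := by
    rw [← hz]
    clear hz
    induction z using TensorProduct.induction_on with
    | zero => simp
    | tmul c a => simp [pi2, g]
    | add x y hx hy => rw [map_add, map_add, hx, hy]
  obtain ⟨w, rfl⟩ := (hex2 z).1 hz'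
  clear hz hz'
  induction w using TensorProduct.induction_on with
  | zero => simpa using hε
  | tmul c a =>
    rw [LinearMap.lTensor_tmul, ev2_tmul, norm_mul]
    have h1 := h a.1 a.2
    calc ‖algebraMap ℚ_[2] E (c : ℚ_[2])‖ * ‖ev ((LinearMap.ker g).subtype a)‖ ≤ 1 * ε :=
          mul_le_mul (norm_alg c) h1 (norm_nonneg _) zero_le_one
      _ = ε := one_mul ε
  | add x y hx hy =>
    rw [map_add, map_add]
    exact (IsUltrametricDist.norm_add_le_max _ _).trans (max_le hx hy)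


/-- Basic estimate. -/
theorem ev2_close (hs : ∀ k, Function.Surjective (π k)) {k : ℕ} {ε : ℝ} (hε : 0 ≤ ε)
    (h : ∀ P, π k P = 0 → ‖ev P‖ ≤ ε)
    {z z' : ℤ_[2] ⊗[ℤ] F} (hz : pi2 A π k z = pi2 A π k z') : ‖ev2 ev z - ev2 ev z'‖ ≤ ε := by
  rw [← map_sub]
  apply norm_ev2_ker A π ev (hs k) hε h
  rw [map_sub, hz, sub_self]

variable [CompleteSpace E]

theorem exists_value (hs : ∀ k, Function.Surjective (π k)) (hf : ∀ k P, f k (π (k + 1) P) = π k P)
    (κ : ℕ → ℕ) (h : ∀ m, ∀ P, π (κ m) P = 0 → ‖ev P‖ ≤ (1 / 2) ^ m) (x : limAlg A f) :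
    ∃ y : E, ∀ m z, pi2 A π (κ m) z = x.1 (κ m) → ‖y - ev2 ev z‖ ≤ (1 / 2) ^ m := by
  have hu := isUltra E
  have hpos : ∀ m : ℕ, (0 : ℝ) ≤ (1 / 2) ^ m := fun m => by positivity
  choose z hz using fun m => pi2_surjective A π (hs (κ m)) (x.1 (κ m))
  -- comparison of the levels `m` and `m'`
  have hcmp : ∀ m m' : ℕ, m ≤ m' → ‖ev2 ev (z m) - ev2 ev (z m')‖ ≤ (1 / 2) ^ m := by
    intro m m' hm
    obtain ⟨w, hw⟩ := pi2_surjective A π (hs (max (κ m) (κ m'))) (x.1 (max (κ m) (κ m')))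
    have h1 := pi2_le A f π hf x w (le_max_left _ _) hw
    have h2 := pi2_le A f π hf x w (le_max_right _ _) hw
    have e1 := ev2_close A π ev hs (hpos m) (h m) (h1.trans (hz m).symm)
    have e2 := ev2_close A π ev hs (hpos m') (h m') (h2.trans (hz m').symm)
    have e3 : (1 / 2 : ℝ) ^ m' ≤ (1 / 2) ^ m :=
      pow_le_pow_of_le_one (by norm_num) (by norm_num) hm
    have e4 : ev2 ev (z m) - ev2 ev (z m') =
        -(ev2 ev w - ev2 ev (z m)) + (ev2 ev w - ev2 ev (z m')) := by ring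
    rw [e4]
    refine (IsUltrametricDist.norm_add_le_max _ _).trans (max_le ?_ (e2.trans e3))
    rwa [norm_neg]
  have hc : CauchySeq fun m => ev2 ev (z m) := by
    refine cauchySeq_of_le_geometric (1 / 2 : ℝ) 1 (by norm_num) fun n => ?_
    rw [dist_eq_norm, one_mul]
    exact hcmp n (n + 1) (Nat.le_succ n)
  obtain ⟨y, hy⟩ := cauchySeq_tendsto_of_complete hc
  refine ⟨y, fun m w hw => ?_⟩
  have h5 : ‖y - ev2 ev (z m)‖ ≤ (1 / 2) ^ m := by
    have ht : Filter.Tendsto (fun m' => ‖ev2 ev (z m') - ev2 ev (z m)‖) Filter.atTop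
        (nhds ‖y - ev2 ev (z m)‖) := (hy.sub_const _).norm
    refine le_of_tendsto ht (Filter.eventually_atTop.2 ⟨m, fun m' hm' => ?_⟩)
    rw [norm_sub_rev]
    exact hcmp m m' hm'
  have h6 := ev2_close A π ev hs (hpos m) (h m) ((hz m).trans hw.symm)
  have e4 : y - ev2 ev w = (y - ev2 ev (z m)) + (ev2 ev (z m) - ev2 ev w) := by ring
  rw [e4]
  exact (IsUltrametricDist.norm_add_le_max _ _).trans (max_le h5 h6)

/-- A character of the inverse limit defined by an approximate system. -/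
theorem exists_limChar (hs : ∀ k, Function.Surjective (π k))
    (hf : ∀ k P, f k (π (k + 1) P) = π k P) (hev : ∀ P, ‖ev P‖ ≤ 1)
    (h : ∀ m : ℕ, ∃ k, ∀ P, π k P = 0 → ‖ev P‖ ≤ (1 / 2) ^ m) :
    ∃ lam : limAlg A f →+* E, (@Continuous _ _ (limTop A f) _ lam) ∧ (∀ x, ‖lam x‖ ≤ 1) ∧
      (∀ c : ℤ_[2], lam (algebraMap ℤ_[2] (limAlg A f) c) = algebraMap ℚ_[2] E (c : ℚ_[2])) ∧
      ∀ P, lam (limMk A f (fun k => π k P) fun k => hf k P) = ev P := by
  have hu := isUltra E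
  choose κ hκ using h
  choose lam hlam using exists_value A f π ev hs hf κ hκ
  have hpos : ∀ m : ℕ, (0 : ℝ) ≤ (1 / 2) ^ m := fun m => by positivity
  -- uniqueness
  have key : ∀ (x : limAlg A f) (y : E),
      (∀ m, ∃ z, pi2 A π (κ m) z = x.1 (κ m) ∧ ‖y - ev2 ev z‖ ≤ (1 / 2) ^ m) → lam x = y := by
    intro x y H
    have h1 : ∀ m : ℕ, ‖lam x - y‖ ≤ (1 / 2) ^ m := by
      intro m
      obtain ⟨z, hz, hy⟩ := H m
      have e : lam x - y = (lam x - ev2 ev z) + -(y - ev2 ev z) := by ring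
      rw [e]
      refine (IsUltrametricDist.norm_add_le_max _ _).trans (max_le (hlam x m z hz) ?_)
      rwa [norm_neg]
    have h2 : ‖lam x - y‖ ≤ 0 := by
      refine ge_of_tendsto' (tendsto_pow_atTop_nhds_zero_of_lt_one (r := (1 / 2 : ℝ))
        (by norm_num) (by norm_num)) h1
    rw [norm_le_zero_iff] at h2
    exact sub_eq_zero.1 h2
  have hex : ∀ (x : limAlg A f) (m : ℕ), ∃ z, pi2 A π (κ m) z = x.1 (κ m) :=
    fun x m => pi2_surjective A π (hs (κ m)) (x.1 (κ m))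
  have hmul : ∀ x y, lam (x * y) = lam x * lam y := by
    intro x y
    refine key _ _ fun m => ?_
    obtain ⟨z, hz⟩ := hex x m
    obtain ⟨w, hw⟩ := hex y m
    refine ⟨z * w, by rw [map_mul, hz, hw]; rfl, ?_⟩
    have e : lam x * lam y - ev2 ev (z * w) =
        (lam x - ev2 ev z) * ev2 ev w + (lam y - ev2 ev w) * (lam x - ev2 ev z) +
          (lam y - ev2 ev w) * ev2 ev z := by
      rw [map_mul]
      ring
    rw [e]
    have b1 := hlam x m z hz
    have b2 := hlam y m w hw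
    have b3 := norm_ev2 ev hev z
    have b4 := norm_ev2 ev hev w
    have p1 : (1 / 2 : ℝ) ^ m ≤ 1 := pow_le_one₀ (by norm_num) (by norm_num)
    refine (IsUltrametricDist.norm_add_le_max _ _).trans (max_le
      ((IsUltrametricDist.norm_add_le_max _ _).trans (max_le ?_ ?_)) ?_)
    · rw [norm_mul]
      calc _ ≤ (1 / 2 : ℝ) ^ m * 1 := mul_le_mul b1 b4 (norm_nonneg _) (hpos m)
        _ = _ := mul_one _
    · rw [norm_mul]
      calc _ ≤ (1 / 2 : ℝ) ^ m * 1 := mul_le_mul b2 (b1.trans p1) (norm_nonneg _) (hpos m)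
        _ = _ := mul_one _
    · rw [norm_mul]
      calc _ ≤ (1 / 2 : ℝ) ^ m * 1 := mul_le_mul b2 b3 (norm_nonneg _) (hpos m)
        _ = _ := mul_one _
  have hadd : ∀ x y, lam (x + y) = lam x + lam y := by
    intro x y
    refine key _ _ fun m => ?_
    obtain ⟨z, hz⟩ := hex x m
    obtain ⟨w, hw⟩ := hex y m
    refine ⟨z + w, by rw [map_add, hz, hw]; rfl, ?_⟩
    have e : lam x + lam y - ev2 ev (z + w) = (lam x - ev2 ev z) + (lam y - ev2 ev w) := by
      rw [map_add]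
      ring
    rw [e]
    exact (IsUltrametricDist.norm_add_le_max _ _).trans
      (max_le (hlam x m z hz) (hlam y m w hw))
  have hone : lam 1 = 1 := by
    refine key _ _ fun m => ⟨1, by rw [map_one]; rfl, ?_⟩
    rw [map_one, sub_self, norm_zero]
    exact hpos m
  have hzero : lam 0 = 0 := by
    refine key _ _ fun m => ⟨0, by rw [map_zero]; rfl, ?_⟩
    rw [map_zero, sub_self, norm_zero]
    exact hpos m
  have hnorm : ∀ x, ‖lam x‖ ≤ 1 := by
    intro x
    obtain ⟨z, hz⟩ := hex x 0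
    have e : lam x = (lam x - ev2 ev z) + ev2 ev z := by ring
    rw [e]
    refine (IsUltrametricDist.norm_add_le_max _ _).trans (max_le ?_ (norm_ev2 ev hev z))
    simpa using hlam x 0 z hz
  refine ⟨{ toFun := lam, map_one' := hone, map_mul' := hmul, map_zero' := hzero,
            map_add' := hadd }, ?_, hnorm, ?_, ?_⟩
  · -- continuity
    let _ := limTop A f
    change Continuous lam
    rw [continuous_iff_continuousAt]
    intro x
    rw [ContinuousAt, Metric.tendsto_nhds]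
    intro ε hε
    obtain ⟨m, hm⟩ := exists_pow_lt_of_lt_one hε (by norm_num : (1 / 2 : ℝ) < 1)
    have hopen : IsOpen {y : limAlg A f |
        (QuotientAddGroup.mk (y.1 (κ m)) : (ℤ_[2] ⊗[ℤ] A (κ m)) ⧸ twoPow A (κ m) m) =
          QuotientAddGroup.mk (x.1 (κ m))} := by
      have h1 : limTop A f ≤ TopologicalSpace.induced
          (fun x : limAlg A f => (QuotientAddGroup.mk (x.1 (κ m)) :
            (ℤ_[2] ⊗[ℤ] A (κ m)) ⧸ twoPow A (κ m) m)) ⊥ := (iInf_le _ (κ m)).trans (iInf_le _ m)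
      exact h1 _ ⟨{QuotientAddGroup.mk (x.1 (κ m))}, trivial, rfl⟩
    filter_upwards [hopen.mem_nhds rfl] with y hy
    have hy' : x.1 (κ m) - y.1 (κ m) ∈ twoPow A (κ m) m := by
      have := QuotientAddGroup.eq.1 hy
      rw [neg_add_eq_sub] at this
      exact this
    obtain ⟨w, hw⟩ := hy'
    obtain ⟨w', rfl⟩ := pi2_surjective A π (hs (κ m)) w
    obtain ⟨z, hz⟩ := hex y m
    have hw2 : pi2 A π (κ m) (z + (2 ^ m : ℕ) • w') = x.1 (κ m) := by
      rw [map_add, map_nsmul, hz]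
      have : (2 ^ m : ℕ) • pi2 A π (κ m) w' = x.1 (κ m) - y.1 (κ m) := hw
      rw [this, add_sub_cancel]
    have b1 := hlam x m _ hw2
    have b2 := hlam y m z hz
    have b3 : ‖ev2 ev ((2 ^ m : ℕ) • w')‖ ≤ (1 / 2) ^ m := by
      rw [map_nsmul, nsmul_eq_mul, norm_mul]
      have : ((2 ^ m : ℕ) : E) = algebraMap ℚ_[2] E ((2 : ℚ_[2]) ^ m) := by
        rw [map_pow, map_ofNat]
        push_cast
        rfl
      rw [this, norm_algebraMap', norm_pow]
      have h2 : ‖(2 : ℚ_[2])‖ = 1 / 2 := by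
        have := Padic.norm_p (p := 2)
        simpa using this
      rw [h2]
      calc _ ≤ (1 / 2 : ℝ) ^ m * 1 := mul_le_mul le_rfl (norm_ev2 ev hev w') (norm_nonneg _) (hpos m)
        _ = _ := mul_one _
    rw [dist_eq_norm]
    refine lt_of_le_of_lt ?_ hm
    have e : lam y - lam x = (lam y - ev2 ev z) + (-(lam x - ev2 ev (z + (2 ^ m : ℕ) • w')) +
        -ev2 ev ((2 ^ m : ℕ) • w')) := by
      rw [map_add]
      ring
    rw [e]
    refine (IsUltrametricDist.norm_add_le_max _ _).trans (max_le b2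
      ((IsUltrametricDist.norm_add_le_max _ _).trans (max_le ?_ ?_)))
    · rwa [norm_neg]
    · rwa [norm_neg]
  · intro c
    refine key _ _ fun m => ⟨algebraMap ℤ_[2] _ c, by rw [AlgHom.commutes]; rfl, ?_⟩
    have : ev2 ev (algebraMap ℤ_[2] (ℤ_[2] ⊗[ℤ] F) c) = algebraMap ℚ_[2] E (c : ℚ_[2]) := by
      rw [Algebra.TensorProduct.algebraMap_apply, ev2_tmul, map_one, mul_one]
      rfl
    rw [this, sub_self, norm_zero]
    exact hpos m
  · intro P
    refine key _ _ fun m => ⟨1 ⊗ₜ P, ?_, ?_⟩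
    · simp [pi2, limMk]
    · rw [ev2_tmul]
      simp

end Limit

end Vale.Agent.P022
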