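import Mathlib

/-!
# Two-dimensional irreducible representations with a semi-invariant matrix are monomial
-/

open Matrix

noncomputable section

namespace Vale.Agent.P022.Solv

variable {F : Type*} [Field F]

/-- two by two matrices -/
abbrev M2 (F : Type*) : Type _ := Matrix (Fin 2) (Fin 2) F

theorem par {w x : Fin 2 → F} (hw : w ≠ 0) (h : x 0 * w 1 = x 1 * w 0) : ∃ c : F, x = c • w := by
  by_cases h0 : w 0 = 0
  · have h1 : w 1 ≠ 0 := by
      intro h1
      apply hw
      funext i
      fin_cases i
      · exact h0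
      · exact h1
    have hx0 : x 0 = 0 := by
      rw [h0, mul_zero] at h
      exact (mul_eq_zero.1 h).resolve_right h1
    refine ⟨x 1 / w 1, ?_⟩
    funext i
    fin_cases i
    · simp [h0, hx0]
    · simp [h1]
  · refine ⟨x 0 / w 0, ?_⟩
    funext i
    fin_cases i
    · simp [h0]
    · simp only [Fin.mk_one, Pi.smul_apply, smul_eq_mul]
      field_simp
      linear_combination -h

/-- The commutant of a nonzero matrix of trace zero. -/
theorem comm_form (h2 : (2 : F) ≠ 0) {b A : M2 F} (hb : b ≠ 0) (ht : b 1 1 = -b 0 0)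
    (hc : A * b = b * A) : ∃ x y : F, A = x • 1 + y • b := by
  have e00 := congrFun (congrFun hc 0) 0
  have e01 := congrFun (congrFun hc 0) 1
  have e10 := congrFun (congrFun hc 1) 0
  simp only [Matrix.mul_apply, Fin.sum_univ_two, ht] at e00 e01 e10
  have key : ∀ y : F, A 0 1 = y * b 0 1 → A 1 0 = y * b 1 0 → A 0 0 - A 1 1 = 2 * y * b 0 0 →
      ∃ x y : F, A = x • 1 + y • b := by
    intro y h1 h3 h4
    refine ⟨A 0 0 - y * b 0 0, y, ?_⟩
    ext i j
    fin_cases i <;> fin_cases j
    · simp
    · simp [h1]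
    · simp [h3]
    · simp [ht]
      linear_combination -h4
  by_cases hq : b 0 1 = 0
  · by_cases hr : b 1 0 = 0
    · have hp : b 0 0 ≠ 0 := by
        intro hp
        apply hb
        ext i j
        fin_cases i <;> fin_cases j
        · exact hp
        · exact hq
        · exact hr
        · simp [ht, hp]
      have h2p : 2 * b 0 0 ≠ 0 := mul_ne_zero h2 hp
      refine key ((A 0 0 - A 1 1) / (2 * b 0 0)) ?_ ?_ ?_
      · rw [hq, mul_zero]
        rw [hq] at e01
        have : A 0 1 * (2 * b 0 0) = 0 := by linear_combination -e01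
        exact (mul_eq_zero.1 this).resolve_right h2p
      · rw [hr, mul_zero]
        rw [hr] at e10
        have : A 1 0 * (2 * b 0 0) = 0 := by linear_combination e10
        exact (mul_eq_zero.1 this).resolve_right h2p
      · field_simp
    · refine key (A 1 0 / b 1 0) ?_ ?_ ?_
      · rw [hq, mul_zero]
        have : A 0 1 * b 1 0 = 0 := by
          rw [hq] at e00
          linear_combination e00
        exact (mul_eq_zero.1 this).resolve_right hr
      · field_simp
      · field_simp
        linear_combination -e10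
  · refine key (A 0 1 / b 0 1) ?_ ?_ ?_
    · field_simp
    · field_simp
      linear_combination -e00
    · field_simp
      linear_combination e01

theorem sq_form {b : M2 F} (ht : b 1 1 = -b 0 0) :
    b * b = (b 0 0 ^ 2 + b 0 1 * b 1 0) • (1 : M2 F) := by
  ext i j
  fin_cases i <;> fin_cases j <;> simp [Matrix.mul_apply, Fin.sum_univ_two, ht] <;> ring

variable {G : Type*} [Group G] (ρ : G →* GL (Fin 2) F)

/-- Conjugation by `ρ g`. -/
def cj (g : G) (X : M2 F) : M2 F := (ρ g : M2 F) * X * (ρ g⁻¹ : M2 F)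

theorem inv_mul' (g : G) : (ρ g⁻¹ : M2 F) * (ρ g : M2 F) = 1 := by
  rw [← Units.val_mul, ← map_mul, inv_mul_cancel, map_one, Units.val_one]

theorem mul_inv' (g : G) : (ρ g : M2 F) * (ρ g⁻¹ : M2 F) = 1 := by
  rw [← Units.val_mul, ← map_mul, mul_inv_cancel, map_one, Units.val_one]

theorem cj_one (X : M2 F) : cj ρ 1 X = X := by
  simp [cj]

theorem cj_cj (g h : G) (X : M2 F) : cj ρ (g * h) X = cj ρ g (cj ρ h X) := by
  simp only [cj, map_mul, _root_.mul_inv_rev, Units.val_mul]
  simp only [mul_assoc]

theorem cj_mul (g : G) (X Y : M2 F) : cj ρ g (X * Y) = cj ρ g X * cj ρ g Y := by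
  simp only [cj]
  have := inv_mul' ρ g
  calc (ρ g : M2 F) * (X * Y) * (ρ g⁻¹ : M2 F)
      = (ρ g : M2 F) * X * 1 * Y * (ρ g⁻¹ : M2 F) := by simp only [mul_one, mul_assoc]
    _ = _ := by rw [← this]; simp only [mul_assoc]

theorem cj_smul (g : G) (c : F) (X : M2 F) : cj ρ g (c • X) = c • cj ρ g X := by
  simp [cj]

theorem cj_add (g : G) (X Y : M2 F) : cj ρ g (X + Y) = cj ρ g X + cj ρ g Y := by
  simp [cj, mul_add, add_mul]

theorem cj_neg (g : G) (X : M2 F) : cj ρ g (-X) = -cj ρ g X := by
  simp [cj]

theorem cj_id (g : G) : cj ρ g 1 = 1 := by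
  rw [cj, mul_one, mul_inv']

theorem cj_zero (g : G) : cj ρ g 0 = 0 := by
  simp [cj]

theorem cj_rho (g h : G) : cj ρ g (ρ h : M2 F) = (ρ (g * h * g⁻¹) : M2 F) := by
  simp only [cj, map_mul, Units.val_mul]

theorem cj_eq_iff (g : G) (X Y : M2 F) :
    cj ρ g X = Y ↔ (ρ g : M2 F) * X = Y * (ρ g : M2 F) := by
  constructor
  · rintro rfl
    rw [cj, mul_assoc _ _ (ρ g : M2 F), inv_mul', mul_one]
  · intro h
    rw [cj, h, mul_assoc, mul_inv', mul_one]

theorem cj_inj (g : G) {X : M2 F} (h : cj ρ g X = 0) : X = 0 := by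
  have := cj_cj ρ g⁻¹ g X
  rw [inv_mul_cancel, cj_one, h, cj_zero] at this
  exact this

theorem cj_trace (g : G) (X : M2 F) : (cj ρ g X).trace = X.trace := by
  rw [cj, Matrix.trace_mul_comm, ← mul_assoc, inv_mul', one_mul]

/-- No common eigenvector. -/
def Irr : Prop := ∀ x : Fin 2 → F, x ≠ 0 → ∃ g : G, ∀ c : F, (ρ g : M2 F).mulVec x ≠ c • x

/-- An abelian subgroup of index two. -/
def Mono : Prop := ∃ H : Subgroup G, H.index = 2 ∧ ∀ a ∈ H, ∀ b ∈ H, ρ a * ρ b = ρ b * ρ a

/-- The centralizer of a matrix. -/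
def cen (b : M2 F) : Subgroup G where
  carrier := {g | cj ρ g b = b}
  one_mem' := cj_one ρ b
  mul_mem' {g h} hg hh := by
    change cj ρ (g * h) b = b
    rw [cj_cj, show cj ρ h b = b from hh]
    exact hg
  inv_mem' {g} hg := by
    change cj ρ g⁻¹ b = b
    have h := cj_cj ρ g⁻¹ g b
    rw [inv_mul_cancel, cj_one, show cj ρ g b = b from hg] at h
    exact h.symm

theorem mem_cen {b : M2 F} {g : G} : g ∈ cen ρ b ↔ cj ρ g b = b := Iff.rfl

theorem exists_col {X : M2 F} (h : X ≠ 0) : ∃ e : Fin 2 → F, X.mulVec e ≠ 0 := by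
  by_contra h'
  push Not at h'
  apply h
  ext i j
  have := congrFun (h' (Pi.single j 1)) i
  simpa using this

/-- Key lemma: if all `ρ g` rescale a nonzero matrix of trace zero, then `ρ` is monomial. -/
theorem mono_of_semi [IsAlgClosed F] (h2 : (2 : F) ≠ 0) (hirr : Irr ρ) {b : M2 F} (hb : b ≠ 0)
    (ht : b 1 1 = -b 0 0) (hcj : ∀ g, ∃ y : F, cj ρ g b = y • b) : Mono ρ := by
  set δ : F := b 0 0 ^ 2 + b 0 1 * b 1 0 with hδ
  have hsq : b * b = δ • (1 : M2 F) := sq_form ht
  by_cases h0 : δ = 0
  · -- nilpotent case: the kernel is stable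
    exfalso
    obtain ⟨e, he⟩ := exists_col hb
    obtain ⟨g, hg⟩ := hirr _ he
    obtain ⟨y, hy⟩ := hcj g
    have hy0 : y ≠ 0 := by
      rintro rfl
      rw [zero_smul] at hy
      exact hb (cj_inj ρ g hy)
    rw [cj_eq_iff] at hy
    have hk : ∀ x : Fin 2 → F, b.mulVec x = 0 → ∃ c : F, x = c • b.mulVec e := by
      intro x hx
      apply par he
      have hw : b.mulVec (b.mulVec e) = 0 := by
        rw [Matrix.mulVec_mulVec, hsq, h0, zero_smul, Matrix.zero_mulVec]
      set w := b.mulVec e with hwdef
      have x0 := congrFun hx 0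
      have x1 := congrFun hx 1
      have w0 := congrFun hw 0
      have w1 := congrFun hw 1
      simp only [Matrix.mulVec, dotProduct, Fin.sum_univ_two, Pi.zero_apply, ht] at x0 x1 w0 w1
      by_cases hp : b 0 0 = 0
      · by_cases hq : b 0 1 = 0
        · have hr : b 1 0 ≠ 0 := by
            intro hr
            apply hb
            ext i j
            fin_cases i <;> fin_cases j
            · exact hp
            · exact hq
            · exact hr
            · simp [ht, hp]
          apply mul_left_cancel₀ hr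
          linear_combination w 1 * x1 - x 1 * w1
        · apply mul_left_cancel₀ hq
          linear_combination x 0 * w0 - w 0 * x0
      · apply mul_left_cancel₀ hp
        linear_combination w 1 * x0 - x 1 * w0
    obtain ⟨c, hc⟩ := hk ((ρ g : M2 F).mulVec (b.mulVec e)) (by
      have h3 : (y • b * (ρ g : M2 F)).mulVec (b.mulVec e) = 0 := by
        rw [← hy, ← Matrix.mulVec_mulVec, Matrix.mulVec_mulVec _ b b, hsq, h0, zero_smul,
          Matrix.zero_mulVec, Matrix.mulVec_zero]
      rw [Matrix.smul_mul, Matrix.smul_mulVec, smul_eq_zero] at h3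
      rw [Matrix.mulVec_mulVec]
      exact h3.resolve_left hy0)
    exact hg c hc
  · have hpm : ∀ g, cj ρ g b = b ∨ cj ρ g b = -b := by
      intro g
      obtain ⟨y, hy⟩ := hcj g
      have h3 : cj ρ g (b * b) = δ • 1 := by rw [hsq, cj_smul, cj_id]
      rw [cj_mul, hy, smul_mul_smul_comm, hsq, smul_smul] at h3
      have h4 := congrFun (congrFun h3 0) 0
      simp only [Matrix.smul_apply, Matrix.one_apply_eq, smul_eq_mul, mul_one] at h4
      have h5 : y * y = 1 := by
        apply mul_right_cancel₀ h0
        rw [h4, one_mul]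
      rcases mul_self_eq_one_iff.1 h5 with h6 | h6
      · left
        rw [hy, h6, one_smul]
      · right
        rw [hy, h6, neg_smul, one_smul]
    have hform : ∀ g ∈ cen ρ b, ∃ x y : F, (ρ g : M2 F) = x • 1 + y • b := fun g hg =>
      comm_form h2 hb ht ((cj_eq_iff ρ g b b).1 hg)
    refine ⟨cen ρ b, ?_, ?_⟩
    · rw [Subgroup.index_eq_two_iff_exists_notMem_and]
      have hex : ∃ a, a ∉ cen ρ b := by
        by_contra hall
        push Not at hall
        obtain ⟨s, hs⟩ := IsAlgClosed.exists_eq_mul_self δ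
        have hne : b + s • (1 : M2 F) ≠ 0 := by
          intro h
          have a1 := congrFun (congrFun h 0) 0
          have a2 := congrFun (congrFun h 1) 1
          have a3 := congrFun (congrFun h 0) 1
          have a4 := congrFun (congrFun h 1) 0
          simp [ht] at a1 a2 a3 a4
          apply hb
          have : b 0 0 = 0 := by
            apply mul_left_cancel₀ h2
            linear_combination a1 - a2
          ext i j
          fin_cases i <;> fin_cases j
          · exact this
          · exact a3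
          · exact a4
          · simp [ht, this]
        obtain ⟨e, he⟩ := exists_col hne
        obtain ⟨g, hg⟩ := hirr _ he
        obtain ⟨x, y, hxy⟩ := hform g (hall g)
        have hbe : b * (b + s • (1 : M2 F)) = s • (b + s • (1 : M2 F)) := by
          rw [mul_add, hsq, hs, smul_add, smul_smul, mul_smul_comm, mul_one, add_comm]
        apply hg (x + y * s)
        rw [hxy, Matrix.mulVec_mulVec, add_mul, Matrix.smul_mul, Matrix.smul_mul, one_mul, hbe,
          smul_smul, ← add_smul, Matrix.smul_mulVec]
      obtain ⟨a, ha⟩ := hex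
      refine ⟨a, ha, fun g => ?_⟩
      by_cases hg : g ∈ cen ρ b
      · exact Or.inr hg
      · left
        have h1 := (hpm a).resolve_left ha
        have h3 := (hpm g).resolve_left hg
        rw [mem_cen, cj_cj, h1, cj_neg, h3, neg_neg]
    · intro g hg h hh
      obtain ⟨x, y, e1⟩ := hform g hg
      obtain ⟨x', y', e2⟩ := hform h hh
      apply Units.ext
      rw [Units.val_mul, Units.val_mul, e1, e2]
      simp only [add_mul, mul_add, smul_mul_smul_comm, one_mul, mul_one, mul_comm x', mul_comm y']
      abel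

end Vale.Agent.P022.Solv
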