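import Vale.Agent.P022.Sys

/-!
# The action of `T_l` on `q`-expansions
-/

open scoped ModularForm MatrixGroups Manifold
open UpperHalfPlane Matrix CongruenceSubgroup

noncomputable section

namespace Vale.Agent.P022

theorem hs_congr {f g : ℕ → ℂ} {x : ℂ} (h : HasSum f x) (e : ∀ m, f m = g m) : HasSum g x := by
  rw [← funext e]
  exact h

theorem slash_tri (k : ℤ) {f : ℍ → ℂ} {a b d : ℚ} (h : a * d - b * 0 ≠ 0) (ha : 0 < a) (hd : 0 < d)
    (τ : ℍ) :
    ∃ τ' : ℍ, (τ' : ℂ) = (a * τ + b) / d ∧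
      (f ∣[k] ((rmat a b 0 d h).map (algebraMap ℚ ℝ))) τ =
        ((a : ℂ) * d) ^ (k - 1) * (d : ℂ) ^ (-k) * f τ' := by
  set g : GL (Fin 2) ℝ := (rmat a b 0 d h).map (algebraMap ℚ ℝ) with hg
  have hM : (g : Matrix (Fin 2) (Fin 2) ℝ) = !![(a : ℝ), b; (0 : ℚ), d] := rmat_coe a b 0 d h
  have hdet : g.det.val = a * d := by
    rw [GeneralLinearGroup.val_det_apply, hM, Matrix.det_fin_two_of]
    simp
  have hpos : 0 < g.det.val := by
    rw [hdet]; exact_mod_cast mul_pos ha hd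
  refine ⟨g • τ, ?_, ?_⟩
  · rw [UpperHalfPlane.coe_smul_of_det_pos hpos]
    simp [UpperHalfPlane.num, UpperHalfPlane.denom, hM]
  · rw [ModularForm.slash_apply]
    have hσ : σ g (f (g • τ)) = f (g • τ) := by
      rw [σ, if_pos hpos]
      rfl
    rw [hσ, hdet]
    have hde : UpperHalfPlane.denom g τ = d := by
      simp [UpperHalfPlane.denom, hM]
    rw [hde]
    have : |(a : ℝ) * d| = a * d := abs_of_pos (by exact_mod_cast mul_pos ha hd)
    rw [this]
    push_cast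
    ring

/-- orthogonality -/
theorem sum_root {p : ℕ} (hp : p.Prime) (m : ℕ) :
    ∑ j : Fin p, Complex.exp (2 * Real.pi * Complex.I * (m * (j : ℕ) / p)) =
      if p ∣ m then (p : ℂ) else 0 := by
  have hp0 : (p : ℂ) ≠ 0 := by exact_mod_cast hp.ne_zero
  set ζ : ℂ := Complex.exp (2 * Real.pi * Complex.I / p) with hζ
  have hprim : IsPrimitiveRoot ζ p := Complex.isPrimitiveRoot_exp p hp.ne_zero
  have e1 : ∀ j : Fin p, Complex.exp (2 * Real.pi * Complex.I * (m * (j : ℕ) / p)) =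
      (ζ ^ m) ^ (j : ℕ) := by
    intro j
    rw [hζ, ← Complex.exp_nat_mul, ← Complex.exp_nat_mul]
    congr 1
    ring
  simp_rw [e1]
  rw [Fin.sum_univ_eq_sum_range (fun j => (ζ ^ m) ^ j) p]
  split_ifs with h
  · have : ζ ^ m = 1 := (hprim.pow_eq_one_iff_dvd m).2 h
    simp [this]
  · have h1 : ζ ^ m ≠ 1 := fun h2 => h ((hprim.pow_eq_one_iff_dvd m).1 h2)
    rw [geom_sum_eq h1, ← pow_mul, mul_comm m p, pow_mul, hprim.pow_eq_one, one_pow, sub_self,
      zero_div]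

/-- the `U_p` part -/
theorem hasQ_U {k : ℤ} {p : ℕ} (hp1 : p.Prime) {f : ℍ → ℂ} {c : ℕ → ℂ} (hf : HasQ f c) (N : ℕ) :
    HasQ (∑ j : Fin p, (f ∣[k] ((hRep N p hp1 (some j)).map (algebraMap ℚ ℝ))))
      (fun m => c (m * p)) := by
  intro τ
  have hp0 : (p : ℂ) ≠ 0 := by exact_mod_cast hp1.ne_zero
  rw [Finset.sum_apply]
  have h1 : ∀ j : Fin p, HasSum (fun m => c m * (Complex.exp (2 * Real.pi * Complex.I *
      (m * τ / p)) * (Complex.exp (2 * Real.pi * Complex.I * (m * (j : ℕ) / p)) / p)))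
      ((f ∣[k] ((hRep N p hp1 (some j)).map (algebraMap ℚ ℝ))) τ) := by
    intro j
    obtain ⟨τ', e1, e2⟩ := slash_tri k (f := f) (a := 1) (b := ((j : ℕ) : ℚ)) (d := (p : ℚ))
      (by simpa using hp1.ne_zero) one_pos (by exact_mod_cast hp1.pos) τ
    rw [hRep, e2]
    have h := (hf τ').mul_left ((((1 : ℚ) : ℂ) * ((p : ℚ) : ℂ)) ^ (k - 1) * ((p : ℚ) : ℂ) ^ (-k))
    refine hs_congr h fun m => ?_
    rw [e1]
    have e3 : 2 * Real.pi * Complex.I * m * ((((1 : ℚ) : ℂ) * τ + (((j : ℕ) : ℚ) : ℂ)) /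
        ((p : ℚ) : ℂ)) = 2 * Real.pi * Complex.I * (m * τ / p) +
          2 * Real.pi * Complex.I * (m * (j : ℕ) / p) := by
      push_cast
      field_simp
    have e4 : (((1 : ℚ) : ℂ) * ((p : ℚ) : ℂ)) ^ (k - 1) * ((p : ℚ) : ℂ) ^ (-k) = 1 / p := by
      push_cast
      rw [one_mul, zpow_sub₀ hp0, _root_.zpow_neg, zpow_one]
      have : (p : ℂ) ^ k ≠ 0 := zpow_ne_zero _ hp0
      field_simp
    rw [e3, Complex.exp_add, e4]
    ring
  have h2 := hasSum_sum (fun j (_ : j ∈ (Finset.univ : Finset (Fin p))) => h1 j)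
  have h3 : HasSum (fun m : ℕ => if p ∣ m then c m * Complex.exp (2 * Real.pi * Complex.I *
      (m * τ / p)) else 0)
      (∑ j : Fin p, (f ∣[k] ((hRep N p hp1 (some j)).map (algebraMap ℚ ℝ))) τ) := by
    refine hs_congr h2 fun m => ?_
    rw [← Finset.mul_sum, ← Finset.mul_sum, ← Finset.sum_div, sum_root hp1 m]
    split_ifs with h
    · field_simp
    · simp
  have inj : Function.Injective (fun m : ℕ => m * p) := fun a b h =>
    Nat.eq_of_mul_eq_mul_right hp1.pos h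
  have h4 := (inj.hasSum_iff (f := fun m : ℕ => if p ∣ m then c m * Complex.exp (2 * Real.pi *
    Complex.I * (m * τ / p)) else 0) (by
      intro x hx
      rw [if_neg]
      rintro ⟨y, rfl⟩
      exact hx ⟨y, mul_comm _ _⟩)).2 h3
  refine hs_congr h4 fun m => ?_
  simp only [Function.comp_apply, dvd_mul_left, if_true]
  congr 2
  push_cast
  field_simp

/-- the `V_p` part -/
theorem hasQ_V {k : ℤ} {p : ℕ} (hp1 : p.Prime) {f : ℍ → ℂ} {c : ℕ → ℂ} (hf : HasQ f c)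
    (h : (p : ℚ) * 1 - 0 * 0 ≠ 0) :
    HasQ (f ∣[k] ((rmat p 0 0 1 h).map (algebraMap ℚ ℝ)))
      (fun m => (p : ℂ) ^ (k - 1) * (if p ∣ m then c (m / p) else 0)) := by
  intro τ
  have hp0 : (p : ℂ) ≠ 0 := by exact_mod_cast hp1.ne_zero
  obtain ⟨τ', e1, e2⟩ := slash_tri k (f := f) (a := (p : ℚ)) (b := 0) (d := 1)
      h (by exact_mod_cast hp1.pos) one_pos τ
  rw [e2]
  have inj : Function.Injective (fun m : ℕ => p * m) := fun a b h =>
    Nat.eq_of_mul_eq_mul_left hp1.pos h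
  refine (inj.hasSum_iff ?_).1 ?_
  · intro x hx
    have : ¬ p ∣ x := by
      rintro ⟨y, rfl⟩
      exact hx ⟨y, rfl⟩
    simp [this]
  · have h := (hf τ').mul_left ((((p : ℚ) : ℂ) * ((1 : ℚ) : ℂ)) ^ (k - 1) * ((1 : ℚ) : ℂ) ^ (-k))
    refine hs_congr h fun m => ?_
    simp only [Function.comp_apply, dvd_mul_right, if_true]
    rw [Nat.mul_div_cancel_left _ hp1.pos, e1]
    have e3 : 2 * Real.pi * Complex.I * ((p * m : ℕ) : ℂ) * τ =
        2 * Real.pi * Complex.I * (m : ℂ) * ((((p : ℚ) : ℂ) * τ + ((0 : ℚ) : ℂ)) /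
        ((1 : ℚ) : ℂ)) := by
      push_cast
      ring
    rw [e3]
    push_cast
    rw [mul_one, _root_.one_zpow, mul_one]
    ring

theorem HasQ.add {f g : ℍ → ℂ} {a b : ℕ → ℂ} (hf : HasQ f a) (hg : HasQ g b) :
    HasQ (f + g) (fun n => a n + b n) := fun τ =>
  hs_congr ((hf τ).add (hg τ)) fun n => by ring

theorem q1 : Q1_statement := by
  intro N _ k l hl hN f a a' ha ha'
  have hdet : (l : ℚ) * 1 - 0 * 0 ≠ 0 := by simpa using hl.ne_zero
  have h1 := hasQ_U (k := k) hl ha N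
  have h2 := hasQ_V (k := k) hl ha' hdet
  have e : (heckeOp N k l hl hN f : ℍ → ℂ) =
      (∑ j : Fin l, ((f : ℍ → ℂ) ∣[k] ((hRep N l hl (some j)).map (algebraMap ℚ ℝ)))) +
        (diamond N k l f : ℍ → ℂ) ∣[k] ((rmat l 0 0 1 hdet).map (algebraMap ℚ ℝ)) := by
    rw [heckeOp_coe, Fintype.sum_option, add_comm]
    congr 1
    rw [diamond_coe, hRep, map_mul, ← mapGL_rat, SlashAction.slash_mul]
    rfl
  rw [e]
  exact h1.add h2

end Vale.Agent.P022
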