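import Vale.Agent.P022.H121.Mono

/-!
# Two-dimensional representations normalising a quaternion group
-/

open Matrix

noncomputable section

namespace Vale.Agent.P022.Solv

variable {F : Type*} [Field F]

/-- A sign as an element of `F`. -/
def sg (F : Type*) [Field F] (u : ℤˣ) : F := ((u : ℤ) : F)

theorem sg_one : sg F 1 = 1 := by simp [sg]

theorem sg_mul (u w : ℤˣ) : sg F (u * w) = sg F u * sg F w := by simp [sg]

theorem sg_neg_one : sg F (-1) = -1 := by simp [sg]

theorem sg_ne (u : ℤˣ) : sg F u ≠ 0 := by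
  rcases Int.units_eq_one_or u with rfl | rfl
  · rw [sg_one]; exact one_ne_zero
  · rw [sg_neg_one]; exact neg_ne_zero.2 one_ne_zero

theorem sg_inj (h2 : (2 : F) ≠ 0) {u w : ℤˣ} (h : sg F u = sg F w) : u = w := by
  have h1 : (1 : F) ≠ -1 := by
    intro h
    apply h2
    linear_combination h
  rcases Int.units_eq_one_or u with rfl | rfl <;> rcases Int.units_eq_one_or w with rfl | rfl
  · rfl
  · rw [sg_one, sg_neg_one] at h
    exact absurd h h1
  · rw [sg_one, sg_neg_one] at h
    exact absurd h.symm h1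
  · rfl

variable {G : Type*} [Group G] (ρ : G →* GL (Fin 2) F)

/-- Action on a finite family of lines, given up to sign. -/
theorem line_hom {ι : Type} (d : ι → M2 F)
    (hT : ∀ g m, ∃ (m' : ι) (ε : ℤˣ), cj ρ g (d m) = sg F ε • d m')
    (hinj : ∀ m m' (ε : ℤˣ), d m = sg F ε • d m' → m = m') :
    ∃ σ : G →* Equiv.Perm ι, ∀ g m, ∃ ε : ℤˣ, cj ρ g (d m) = sg F ε • d (σ g m) := by
  choose f e h using hT
  have huniq : ∀ m m' (ε ε' : ℤˣ), sg F ε • d m = sg F ε' • d m' → m = m' := by
    intro m m' ε ε' hh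
    apply hinj m m' (ε * ε')
    have h1 : sg F ε • (sg F ε • d m) = sg F ε • (sg F ε' • d m') := by rw [hh]
    rw [smul_smul, ← sg_mul, Int.units_mul_self, sg_one, one_smul, smul_smul, ← sg_mul] at h1
    exact h1
  have hmul : ∀ g g' m, f (g * g') m = f g (f g' m) := by
    intro g g' m
    have h1 := h (g * g') m
    rw [cj_cj, h g' m, cj_smul, h g, smul_smul, ← sg_mul] at h1
    exact (huniq _ _ _ _ h1).symm
  have hone : ∀ m, f 1 m = m := by
    intro m
    have h1 := h 1 m
    rw [cj_one] at h1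
    exact (hinj _ _ _ h1).symm
  refine ⟨{ toFun := fun g => ⟨f g, f g⁻¹, fun m => ?_, fun m => ?_⟩
            map_one' := ?_
            map_mul' := ?_ }, fun g m => ⟨e g m, h g m⟩⟩
  · rw [← hmul, inv_mul_cancel, hone]
  · rw [← hmul, mul_inv_cancel, hone]
  · ext m
    exact hone m
  · intro g g'
    ext m
    exact hmul g g' m

/-- A quaternion triple. -/
structure QT (q : Fin 3 → M2 F) : Prop where
  sq : ∀ n, q n * q n = -1
  anti : ∀ m n, m ≠ n → q m * q n = -(q n * q m)
  prod : q 0 * q 1 = q 2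

theorem QT.coord {q : Fin 3 → M2 F} (hq : QT q) (c : Fin 3 → F) (m : Fin 3) :
    (∑ n, c n • q n) * q m + q m * ∑ n, c n • q n = (-(2 * c m)) • (1 : M2 F) := by
  rw [Finset.sum_mul, Finset.mul_sum, ← Finset.sum_add_distrib, Finset.sum_eq_single m]
  · rw [smul_mul_assoc, mul_smul_comm, hq.sq, ← smul_add, smul_add, smul_neg, ← neg_add, ← two_smul F (c m • (1 : M2 F)),
      smul_smul, neg_smul]
  · intro n _ hn
    rw [smul_mul_assoc, mul_smul_comm, hq.anti n m hn, smul_neg, neg_add_cancel]
  · intro h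
    exact absurd (Finset.mem_univ m) h

theorem one_ne : (1 : M2 F) ≠ 0 := one_ne_zero

theorem smul_one_eq_zero {c : F} (h : c • (1 : M2 F) = 0) : c = 0 :=
  (smul_eq_zero.1 h).resolve_right one_ne

theorem QT.indep {q : Fin 3 → M2 F} (hq : QT q) (h2 : (2 : F) ≠ 0) {c c' : Fin 3 → F}
    (h : ∑ n, c n • q n = ∑ n, c' n • q n) (m : Fin 3) : c m = c' m := by
  have h1 := hq.coord c m
  rw [h, hq.coord c' m] at h1
  rw [← sub_eq_zero, ← sub_smul] at h1
  have h3 := smul_one_eq_zero h1
  apply mul_left_cancel₀ h2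
  linear_combination h3

theorem QT.ne {q : Fin 3 → M2 F} (hq : QT q) (n : Fin 3) : q n ≠ 0 := by
  intro h
  have := hq.sq n
  rw [h, mul_zero] at this
  exact one_ne (neg_eq_zero.1 this.symm)

theorem QT.tr {q : Fin 3 → M2 F} (hq : QT q) (h2 : (2 : F) ≠ 0) (n : Fin 3) :
    q n 1 1 = -q n 0 0 := by
  obtain ⟨m, hm⟩ : ∃ m : Fin 3, m ≠ n := ⟨n + 1, by fin_cases n <;> decide⟩
  have h1 := hq.anti m n hm
  have h3 : (q m * q n * q m).trace = (q m * q m * q n).trace := by
    rw [Matrix.trace_mul_comm, ← mul_assoc]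
  rw [h1, neg_mul, mul_assoc, hq.sq, mul_neg, mul_one, neg_neg, neg_mul, one_mul,
    Matrix.trace_neg] at h3
  rw [Matrix.trace_fin_two] at h3
  apply mul_left_cancel₀ h2
  linear_combination h3

/-- Sign table of the four diagonals. -/
def tab : Fin 4 → Fin 3 → ℤˣ
  | 0 => ![1, 1, 1]
  | 1 => ![1, -1, -1]
  | 2 => ![-1, 1, -1]
  | 3 => ![-1, -1, 1]

theorem tab_cover : ∀ s : Fin 3 → ℤˣ, ∃ (m : Fin 4) (ε : ℤˣ), ∀ n, s n = ε * tab m n := by
  decide

theorem tab_inj : ∀ (m m' : Fin 4) (ε : ℤˣ), (∀ n, tab m n = ε * tab m' n) → m = m' := by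
  decide

theorem tab_ker : ∀ (π : Equiv.Perm (Fin 3)) (e : Fin 3 → ℤˣ) (e' : Fin 4 → ℤˣ),
    (∀ m n, tab m n * e n = e' m * tab m (π n)) → π = 1 ∧ e 1 = e 0 ∧ e 2 = e 0 := by
  decide +kernel

/-- The four diagonals. -/
def diag (q : Fin 3 → M2 F) (m : Fin 4) : M2 F := ∑ n, sg F (tab m n) • q n


theorem smul_diag (q : Fin 3 → M2 F) (ε : ℤˣ) (m : Fin 4) :
    sg F ε • diag q m = ∑ n, sg F (ε * tab m n) • q n := by
  rw [diag, Finset.smul_sum]
  exact Finset.sum_congr rfl fun n _ => by rw [smul_smul, sg_mul]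

theorem diag_inj {q : Fin 3 → M2 F} (hq : QT q) (h2 : (2 : F) ≠ 0) {m m' : Fin 4} {ε : ℤˣ}
    (h : diag q m = sg F ε • diag q m') : m = m' := by
  rw [smul_diag, diag] at h
  exact tab_inj m m' ε fun n => sg_inj h2 (hq.indep h2 (c := fun n => sg F (tab m n))
    (c' := fun n => sg F (ε * tab m' n)) h n)

theorem q_inj {q : Fin 3 → M2 F} (hq : QT q) (h2 : (2 : F) ≠ 0) {n n' : Fin 3} {ε : ℤˣ}
    (h : q n = sg F ε • q n') : n = n' := by
  by_contra hne
  have h1 : ∑ k, (if k = n then (1 : F) else 0) • q k =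
      ∑ k, (if k = n' then sg F ε else 0) • q k := by
    simp only [ite_smul, one_smul, zero_smul, Finset.sum_ite_eq', Finset.mem_univ, if_true]
    exact h
  have h3 := hq.indep h2 h1 n
  simp [hne] at h3

/-- `X` commutes with `Y` up to sign. -/
def PM (X Y : M2 F) : Prop := X * Y = Y * X ∨ X * Y = -(Y * X)

theorem PM.mul {X Y Z : M2 F} (h1 : PM X Z) (h2 : PM Y Z) : PM (X * Y) Z := by
  rcases h1 with h1 | h1 <;> rcases h2 with h2 | h2
  · left
    rw [mul_assoc, h2, ← mul_assoc, h1, mul_assoc]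
  · right
    rw [mul_assoc, h2, mul_neg, ← mul_assoc, h1, mul_assoc]
  · right
    rw [mul_assoc, h2, ← mul_assoc, h1, neg_mul, mul_assoc]
  · left
    rw [mul_assoc, h2, mul_neg, ← mul_assoc, h1, neg_mul, neg_neg, mul_assoc]

theorem PM.smul {X Z : M2 F} (h1 : PM X Z) (c : F) : PM (c • X) Z := by
  rcases h1 with h1 | h1
  · left
    rw [smul_mul_assoc, mul_smul_comm, h1]
  · right
    rw [smul_mul_assoc, mul_smul_comm, h1, smul_neg]

theorem PM.symm {X Z : M2 F} (h1 : PM X Z) : PM Z X := by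
  rcases h1 with h1 | h1
  · exact Or.inl h1.symm
  · right
    rw [h1, neg_neg]

/-- Matrices of square `-1` commuting up to sign with the quaternion units. -/
theorem classify {q : Fin 3 → M2 F} (hq : QT q) (h2 : (2 : F) ≠ 0) {X : M2 F} (hX : X * X = -1)
    (ht : X 1 1 = -X 0 0) (p0 : PM X (q 0)) (p1 : PM X (q 1)) :
    ∃ (n : Fin 3) (ε : ℤˣ), X = sg F ε • q n := by
  have h01 := hq.anti 0 1 (by decide)
  have fin : ∀ (n : Fin 3) (x y : F), X = x • 1 + y • q n → x = 0 →
      ∃ (n : Fin 3) (ε : ℤˣ), X = sg F ε • q n := by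
    intro n x y hxy hx
    rw [hx, zero_smul, zero_add] at hxy
    have h3 : (y * y) • (1 : M2 F) = (1 : F) • (1 : M2 F) := by
      rw [hxy, smul_mul_smul_comm, hq.sq, smul_neg, neg_inj] at hX
      rw [hX, one_smul]
    have h4 : y * y = 1 := by
      rw [← sub_eq_zero, ← sub_smul] at h3
      have := smul_one_eq_zero h3
      linear_combination this
    rcases mul_self_eq_one_iff.1 h4 with h6 | h6
    · exact ⟨n, 1, by rw [hxy, h6, sg_one]⟩
    · exact ⟨n, -1, by rw [hxy, h6, sg_neg_one]⟩
  -- the scalar part vanishes if `X` anticommutes with `q m`, `m ≠ n`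
  have sc : ∀ (m n : Fin 3) (x y : F), m ≠ n → X = x • 1 + y • q n → X * q m = -(q m * X) →
      x = 0 := by
    intro m n x y hmn hxy hm
    rw [hxy, add_mul, mul_add, smul_mul_assoc, smul_mul_assoc, one_mul, mul_smul_comm,
      mul_smul_comm, mul_one, hq.anti n m hmn.symm, smul_neg, neg_add] at hm
    have h3 : (2 * x) • q m = 0 := by
      have h5 := add_right_cancel hm
      rw [two_mul, add_smul]
      nth_rewrite 1 [h5]
      abel
    have h4 := (smul_eq_zero.1 h3).resolve_right (hq.ne m)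
    exact (mul_eq_zero.1 h4).resolve_left h2
  rcases p0 with p0 | p0
  · obtain ⟨x, y, hxy⟩ := comm_form h2 (hq.ne 0) (hq.tr h2 0) p0
    rcases p1 with p1 | p1
    · -- `X` is scalar
      exfalso
      rw [hxy, add_mul, mul_add, smul_mul_assoc, smul_mul_assoc, one_mul, mul_smul_comm,
        mul_smul_comm, mul_one, add_right_inj, hq.anti 0 1 (by decide), smul_neg] at p1
      have h3 : (2 * y) • (q 1 * q 0) = 0 := by
        rw [two_mul, add_smul]
        nth_rewrite 1 [← p1]
        abel
      have h5 : q 1 * q 0 ≠ 0 := by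
        intro h
        have : q 1 * (q 1 * q 0) = 0 := by rw [h, mul_zero]
        rw [← mul_assoc, hq.sq, neg_mul, one_mul, neg_eq_zero] at this
        exact hq.ne 0 this
      have h4 := (smul_eq_zero.1 h3).resolve_right h5
      have hy : y = 0 := (mul_eq_zero.1 h4).resolve_left h2
      rw [hy, zero_smul, add_zero] at hxy
      rw [hxy] at ht hX
      simp only [Matrix.smul_apply, Matrix.one_apply_eq, smul_eq_mul, mul_one] at ht
      have hx : x = 0 := by
        apply mul_left_cancel₀ h2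
        linear_combination ht
      rw [hx, zero_smul, zero_mul] at hX
      exact one_ne (neg_eq_zero.1 hX.symm)
    · exact fin 0 x y hxy (sc 1 0 x y (by decide) hxy p1)
  · rcases p1 with p1 | p1
    · obtain ⟨x, y, hxy⟩ := comm_form h2 (hq.ne 1) (hq.tr h2 1) p1
      exact fin 1 x y hxy (sc 0 1 x y (by decide) hxy p0)
    · have p2 : X * q 2 = q 2 * X := by
        rw [← hq.prod, ← mul_assoc, p0, neg_mul, mul_assoc, p1, mul_neg, neg_neg, ← mul_assoc]
      obtain ⟨x, y, hxy⟩ := comm_form h2 (hq.ne 2) (hq.tr h2 2) p2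
      exact fin 2 x y hxy (sc 0 2 x y (by decide) hxy p0)

/-- The main construction: a representation permuting the quaternion units up to sign. -/
theorem main_quat [IsAlgClosed F] (h2 : (2 : F) ≠ 0) (hirr : Irr ρ) {q : Fin 3 → M2 F} (hq : QT q)
    (hT : ∀ g n, ∃ (n' : Fin 3) (ε : ℤˣ), cj ρ g (q n) = sg F ε • q n')
    {a b : G} {s t : F} (ha : (ρ a : M2 F) = s • q 0) (hb : (ρ b : M2 F) = t • q 1) :
    Mono ρ ∨ ∃ σ : G →* Equiv.Perm (Fin 4),
      (∀ g, σ g = 1 ↔ ∃ c : F, (ρ g : M2 F) = c • 1) ∧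
      (Nat.card σ.range = 12 ∨ Nat.card σ.range = 24) := by
  obtain ⟨π, hπ⟩ := line_hom ρ q hT (fun m m' ε h => q_inj hq h2 h)
  have hTd : ∀ g m, ∃ (m' : Fin 4) (ε : ℤˣ), cj ρ g (diag q m) = sg F ε • diag q m' := by
    intro g m
    choose e he using hπ g
    obtain ⟨m', ε, h⟩ := tab_cover fun n => tab m ((π g)⁻¹ n) * e ((π g)⁻¹ n)
    refine ⟨m', ε, ?_⟩
    have h1 : cj ρ g (diag q m) = ∑ n, sg F (tab m n * e n) • q (π g n) := by
      rw [diag]
      have hsum : ∀ (f : Fin 3 → M2 F), cj ρ g (∑ n, f n) = ∑ n, cj ρ g (f n) := by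
        intro f
        simp only [cj, Finset.mul_sum, Finset.sum_mul]
      rw [hsum]
      refine Finset.sum_congr rfl fun n _ => ?_
      rw [cj_smul, he, smul_smul, sg_mul]
    rw [h1, smul_diag]
    refine Fintype.sum_equiv (π g) _ _ fun n => ?_
    rw [← h]
    simp
  obtain ⟨σ, hσ⟩ := line_hom ρ (diag q) hTd (fun m m' ε h => diag_inj hq h2 h)
  have hscal : ∀ g, (∃ c : F, (ρ g : M2 F) = c • 1) → ∀ X, cj ρ g X = X := by
    rintro g ⟨c, hc⟩ X
    rw [cj_eq_iff, hc, smul_mul_assoc, mul_smul_comm, one_mul, mul_one]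
  have hker : ∀ g, σ g = 1 ↔ ∃ c : F, (ρ g : M2 F) = c • 1 := by
    intro g
    constructor
    · intro hg
      choose e he using hπ g
      choose e' he' using hσ g
      have h1 : ∀ m, cj ρ g (diag q m) = ∑ n, sg F (tab m n * e n) • q (π g n) := by
        intro m
        rw [diag]
        have hsum : ∀ (f : Fin 3 → M2 F), cj ρ g (∑ n, f n) = ∑ n, cj ρ g (f n) := by
          intro f
          simp only [cj, Finset.mul_sum, Finset.sum_mul]
        rw [hsum]
        refine Finset.sum_congr rfl fun n _ => ?_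
        rw [cj_smul, he, smul_smul, sg_mul]
      have h3 : ∀ m, ∑ n, sg F (tab m ((π g)⁻¹ n) * e ((π g)⁻¹ n)) • q n =
          ∑ n, sg F (e' m * tab m n) • q n := by
        intro m
        rw [← smul_diag]
        have h4 := he' m
        rw [hg, Equiv.Perm.one_apply] at h4
        rw [← h4, h1 m]
        symm
        refine Fintype.sum_equiv (π g) _ _ fun n => ?_
        simp
      have h5 : ∀ m n, tab m n * e n = e' m * tab m (π g n) := by
        intro m n
        have := sg_inj h2 (hq.indep h2 (c := fun n => sg F (tab m ((π g)⁻¹ n) * e ((π g)⁻¹ n)))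
          (c' := fun n => sg F (e' m * tab m n)) (h3 m) (π g n))
        simpa using this
      obtain ⟨h6, h7, h8⟩ := tab_ker (π g) e e' h5
      have c0 := he 0
      have c1 := he 1
      have c2 := he 2
      rw [h6, Equiv.Perm.one_apply] at c0 c1 c2
      rw [h7] at c1
      rw [h8] at c2
      have h9 : e 0 = 1 := by
        apply sg_inj h2
        rw [← hq.prod, cj_mul, c0, c1, smul_mul_smul_comm, ← sg_mul, Int.units_mul_self, sg_one,
          one_smul, hq.prod] at c2
        have h10 : (1 - sg F (e 0)) • q 2 = 0 := by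
          rw [sub_smul, one_smul, sub_eq_zero]
          exact c2
        have h11 := (smul_eq_zero.1 h10).resolve_right (hq.ne 2)
        rw [sg_one]
        linear_combination -h11
      rw [h9, sg_one, one_smul] at c0 c1
      obtain ⟨x, y, hxy⟩ := comm_form h2 (hq.ne 0) (hq.tr h2 0) ((cj_eq_iff ρ g _ _).1 c0)
      have p1 := (cj_eq_iff ρ g _ _).1 c1
      rw [hxy, add_mul, mul_add, smul_mul_assoc, smul_mul_assoc, one_mul, mul_smul_comm,
        mul_smul_comm, mul_one, add_right_inj, hq.anti 0 1 (by decide), smul_neg] at p1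
      have h3' : (2 * y) • (q 1 * q 0) = 0 := by
        rw [two_mul, add_smul]
        nth_rewrite 1 [← p1]
        abel
      have h5' : q 1 * q 0 ≠ 0 := by
        intro h
        have : q 1 * (q 1 * q 0) = 0 := by rw [h, mul_zero]
        rw [← mul_assoc, hq.sq, neg_mul, one_mul, neg_eq_zero] at this
        exact hq.ne 0 this
      have h4' := (smul_eq_zero.1 h3').resolve_right h5'
      have hy : y = 0 := (mul_eq_zero.1 h4').resolve_left h2
      rw [hy, zero_smul, add_zero] at hxy
      exact ⟨x, hxy⟩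
    · intro hc
      ext m : 1
      obtain ⟨ε, hε⟩ := hσ g m
      rw [hscal g hc] at hε
      rw [Equiv.Perm.one_apply]
      exact (diag_inj hq h2 hε).symm
  by_cases hfix : ∃ n, ∀ g, π g n = n
  · left
    obtain ⟨n, hn⟩ := hfix
    refine mono_of_semi ρ h2 hirr (hq.ne n) (hq.tr h2 n) fun g => ?_
    obtain ⟨ε, hε⟩ := hπ g n
    rw [hn] at hε
    exact ⟨_, hε⟩
  · right
    refine ⟨σ, hker, ?_⟩
    -- `3` divides the order
    have hkk : σ.ker ≤ π.ker := by
      intro g hg
      rw [MonoidHom.mem_ker] at hg ⊢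
      ext n : 1
      obtain ⟨ε, hε⟩ := hπ g n
      rw [hscal g ((hker g).1 hg)] at hε
      rw [Equiv.Perm.one_apply]
      exact (q_inj hq h2 hε).symm
    have hdvd : Nat.card π.range ∣ Nat.card σ.range := by
      rw [← Subgroup.index_ker, ← Subgroup.index_ker]
      exact Subgroup.index_dvd_of_le hkk
    have h3 : 3 ∣ Nat.card π.range := by
      by_contra hnot
      have hd : Nat.card π.range ∣ 6 := by
        have := π.range.card_subgroup_dvd_card
        rw [Nat.card_perm, Nat.card_fin] at this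
        simpa [Nat.factorial] using this
      have hle : Nat.card π.range ∣ 2 := by
        have hc : Nat.Coprime (Nat.card π.range) 3 :=
          ((Nat.Prime.coprime_iff_not_dvd Nat.prime_three).2 hnot).symm
        exact hc.dvd_of_dvd_mul_right (by norm_num; exact hd)
      have hsq : ∀ x ∈ π.range, x * x = 1 := by
        intro x hx
        have h1 : (⟨x, hx⟩ : π.range) ^ 2 = 1 := by
          obtain ⟨k, hk⟩ := hle
          rw [hk, pow_mul, pow_card_eq_one', one_pow]
        have := congrArg Subtype.val h1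
        simpa [sq] using this
      push Not at hfix
      choose g hg using hfix
      have hall : ∀ x ∈ π.range, ∀ y ∈ π.range, x ≠ 1 → y ≠ 1 → x = y := by
        intro x hx y hy hx1 hy1
        by_contra hxy
        have h5 : 3 ≤ Nat.card π.range := by
          have hinj : Function.Injective
              (![(⟨1, one_mem _⟩ : π.range), ⟨x, hx⟩, ⟨y, hy⟩] : Fin 3 → π.range) := by
            intro i j hij
            fin_cases i <;> fin_cases j <;> simp_all
          have := Nat.card_le_card_of_injective _ hinj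
          rwa [Nat.card_fin] at this
        have := Nat.le_of_dvd (by norm_num) hle
        omega
      have hne : ∀ n, π (g n) ≠ 1 := by
        intro n hn
        apply hg n
        rw [hn]
        rfl
      have e1 : π (g 1) = π (g 0) := hall _ ⟨_, rfl⟩ _ ⟨_, rfl⟩ (hne 1) (hne 0)
      have e2 : π (g 2) = π (g 0) := hall _ ⟨_, rfl⟩ _ ⟨_, rfl⟩ (hne 2) (hne 0)
      have k0 := hg 0
      have k1 := hg 1
      have k2 := hg 2
      rw [e1] at k1
      rw [e2] at k2
      have hs := hsq _ ⟨g 0, rfl⟩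
      have hdec : ∀ x : Equiv.Perm (Fin 3), x 0 ≠ 0 → x 1 ≠ 1 → x 2 ≠ 2 → x * x ≠ 1 := by
        decide
      exact hdec _ k0 k1 k2 hs
    -- `4` divides the order
    have hcja : ∀ X : M2 F, cj ρ a X = -(q 0 * X * q 0) := by
      intro X
      rw [cj_eq_iff, ha]
      have : s • q 0 * X = s • (q 0 * X) := by rw [smul_mul_assoc]
      rw [this, mul_smul_comm, neg_mul, mul_assoc (q 0 * X), hq.sq, mul_neg, mul_one, neg_neg]
    have hcjb : ∀ X : M2 F, cj ρ b X = -(q 1 * X * q 1) := by
      intro X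
      rw [cj_eq_iff, hb]
      have : t • q 1 * X = t • (q 1 * X) := by rw [smul_mul_assoc]
      rw [this, mul_smul_comm, neg_mul, mul_assoc (q 1 * X), hq.sq, mul_neg, mul_one, neg_neg]
    have ea : ∀ n, cj ρ a (q n) = sg F (tab 1 n) • q n := by
      intro n
      rw [hcja]
      fin_cases n
      · change -(q 0 * q 0 * q 0) = sg F 1 • q 0
        rw [hq.sq, sg_one, one_smul, neg_mul, one_mul, neg_neg]
      · change -(q 0 * q 1 * q 0) = sg F (-1) • q 1
        rw [hq.anti 0 1 (by decide), neg_mul, mul_assoc, hq.sq, sg_neg_one, neg_smul, one_smul,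
          mul_neg, mul_one, neg_neg]
      · change -(q 0 * q 2 * q 0) = sg F (-1) • q 2
        rw [hq.anti 0 2 (by decide), neg_mul, mul_assoc, hq.sq, sg_neg_one, neg_smul, one_smul,
          mul_neg, mul_one, neg_neg]
    have eb : ∀ n, cj ρ b (q n) = sg F (tab 2 n) • q n := by
      intro n
      rw [hcjb]
      fin_cases n
      · change -(q 1 * q 0 * q 1) = sg F (-1) • q 0
        rw [hq.anti 1 0 (by decide), neg_mul, mul_assoc, hq.sq, sg_neg_one, neg_smul, one_smul,
          mul_neg, mul_one, neg_neg]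
      · change -(q 1 * q 1 * q 1) = sg F 1 • q 1
        rw [hq.sq, sg_one, one_smul, neg_mul, one_mul, neg_neg]
      · change -(q 1 * q 2 * q 1) = sg F (-1) • q 2
        rw [hq.anti 1 2 (by decide), neg_mul, mul_assoc, hq.sq, sg_neg_one, neg_smul, one_smul,
          mul_neg, mul_one, neg_neg]
    have hact : ∀ (g : G) (k : Fin 4), (∀ n, cj ρ g (q n) = sg F (tab k n) • q n) →
        ∀ m, ∃ ε : ℤˣ, ∀ n, tab m n * tab k n = ε * tab (σ g m) n := by
      intro g k hk m
      obtain ⟨ε, hε⟩ := hσ g m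
      refine ⟨ε, fun n => ?_⟩
      rw [smul_diag] at hε
      have h1 : cj ρ g (diag q m) = ∑ n, sg F (tab m n * tab k n) • q n := by
        rw [diag]
        have hsum : ∀ (f : Fin 3 → M2 F), cj ρ g (∑ n, f n) = ∑ n, cj ρ g (f n) := by
          intro f
          simp only [cj, Finset.mul_sum, Finset.sum_mul]
        rw [hsum]
        refine Finset.sum_congr rfl fun n _ => ?_
        rw [cj_smul, hk, smul_smul, sg_mul]
      rw [h1] at hε
      exact sg_inj h2 (hq.indep h2 (c := fun n => sg F (tab m n * tab k n))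
        (c' := fun n => sg F (ε * tab (σ g m) n)) hε n)
    have hdec1 : ∀ x : Equiv.Perm (Fin 4), (∀ m, ∃ ε : ℤˣ, ∀ n, tab m n * tab 1 n = ε * tab (x m) n) →
        x = Equiv.swap 0 1 * Equiv.swap 2 3 := by
      decide +kernel
    have hdec2 : ∀ x : Equiv.Perm (Fin 4), (∀ m, ∃ ε : ℤˣ, ∀ n, tab m n * tab 2 n = ε * tab (x m) n) →
        x = Equiv.swap 0 2 * Equiv.swap 1 3 := by
      decide +kernel
    have hsa : σ a = Equiv.swap 0 1 * Equiv.swap 2 3 := hdec1 _ (hact a 1 ea)
    have hsb : σ b = Equiv.swap 0 2 * Equiv.swap 1 3 := hdec2 _ (hact b 2 eb)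
    have h4 : 4 ∣ Nat.card σ.range := by
      let V : Subgroup (Equiv.Perm (Fin 4)) :=
        { carrier := {x | x = 1 ∨ x = Equiv.swap 0 1 * Equiv.swap 2 3 ∨
            x = Equiv.swap 0 2 * Equiv.swap 1 3 ∨ x = Equiv.swap 0 3 * Equiv.swap 1 2}
          one_mem' := Or.inl rfl
          mul_mem' := by
            rintro x y (rfl | rfl | rfl | rfl) (rfl | rfl | rfl | rfl) <;> decide
          inv_mem' := by
            rintro x (rfl | rfl | rfl | rfl) <;> decide }
      have hV : V ≤ σ.range := by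
        rintro x (rfl | rfl | rfl | rfl)
        · exact one_mem _
        · exact ⟨a, hsa⟩
        · exact ⟨b, hsb⟩
        · refine ⟨a * b, ?_⟩
          rw [map_mul, hsa, hsb]
          decide
      have hcV : Nat.card V = 4 := by
        have : (V : Set (Equiv.Perm (Fin 4))) = (({1, Equiv.swap 0 1 * Equiv.swap 2 3,
            Equiv.swap 0 2 * Equiv.swap 1 3, Equiv.swap 0 3 * Equiv.swap 1 2} :
              Finset (Equiv.Perm (Fin 4))) : Set (Equiv.Perm (Fin 4))) := by
          ext x
          simp [V]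
        change Nat.card (V : Set (Equiv.Perm (Fin 4))) = 4
        rw [this, Nat.card_coe_set_eq, Set.ncard_coe_finset]
        decide
      have h5 := Subgroup.card_dvd_of_le hV
      rwa [hcV] at h5
    have h24 : Nat.card σ.range ∣ 24 := by
      have := σ.range.card_subgroup_dvd_card
      rw [Nat.card_perm, Nat.card_fin] at this
      simpa [Nat.factorial] using this
    have h12 : 12 ∣ Nat.card σ.range := by
      have := Nat.Coprime.mul_dvd_of_dvd_of_dvd (by norm_num : Nat.Coprime 3 4) (h3.trans hdvd) h4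
      simpa using this
    obtain ⟨k, hk⟩ := h12
    rw [hk] at h24 ⊢
    have hk2 : k ∣ 2 := Nat.dvd_of_mul_dvd_mul_left (by norm_num : 0 < 12) (by simpa using h24)
    have hk3 := Nat.le_of_dvd (by norm_num) hk2
    interval_cases k
    · simp at hk2
    · left; rfl
    · right; rfl

end Vale.Agent.P022.Solv
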