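import Vale.Agent.P022.H121.Quat

/-!
# Irreducible two-dimensional representations with solvable image
-/

open Matrix
open scoped commutatorElement

noncomputable section

namespace Vale.Agent.P022.Solv

variable {F : Type*} [Field F] {G : Type*} [Group G] (ρ : G →* GL (Fin 2) F)

theorem trace_zero_iff {X : M2 F} : X.trace = 0 ↔ X 1 1 = -X 0 0 := by
  rw [Matrix.trace_fin_two]
  constructor
  · intro h
    linear_combination h
  · intro h
    linear_combination h

/-- A normal subgroup with commutative image containing a nonscalar element. -/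
theorem mono_of_comm [IsAlgClosed F] (h2 : (2 : F) ≠ 0) (hirr : Irr ρ) (N : Subgroup G) (hN : N.Normal)
    (hc : ∀ x ∈ N, ∀ y ∈ N, (ρ x : M2 F) * (ρ y : M2 F) = (ρ y : M2 F) * (ρ x : M2 F))
    {x0 : G} (hx0 : x0 ∈ N) (hns : ∀ c : F, (ρ x0 : M2 F) ≠ c • 1) : Mono ρ := by
  set X : M2 F := (ρ x0 : M2 F) with hX
  set b : M2 F := X - (X.trace / 2) • (1 : M2 F) with hb
  have htr : b.trace = 0 := by
    rw [hb, Matrix.trace_sub, Matrix.trace_smul, Matrix.trace_one, Fintype.card_fin]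
    simp only [smul_eq_mul]
    push_cast
    field_simp
    ring
  have hb0 : b ≠ 0 := by
    intro h
    rw [hb, sub_eq_zero] at h
    exact hns _ h
  refine mono_of_semi ρ h2 hirr hb0 (trace_zero_iff.1 htr) fun g => ?_
  have h1 : cj ρ g b = (ρ (g * x0 * g⁻¹) : M2 F) - (X.trace / 2) • (1 : M2 F) := by
    rw [hb, sub_eq_add_neg, cj_add, cj_neg, cj_smul, cj_id, hX, cj_rho, ← sub_eq_add_neg]
  have h3 : cj ρ g b * b = b * cj ρ g b := by
    have h4 := hc _ (hN.conj_mem x0 hx0 g) _ hx0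
    rw [h1, hb]
    simp only [sub_mul, mul_sub, smul_mul_assoc, mul_smul_comm, one_mul, mul_one, smul_sub]
    rw [← hX] at h4
    rw [h4]
    abel
  obtain ⟨x, y, hxy⟩ := comm_form h2 hb0 (trace_zero_iff.1 htr) h3
  have h5 : (cj ρ g b).trace = 0 := by rw [cj_trace, htr]
  rw [hxy, Matrix.trace_add, Matrix.trace_smul, Matrix.trace_smul, htr, Matrix.trace_one,
    Fintype.card_fin, smul_zero, add_zero, smul_eq_mul] at h5
  have h6 : x = 0 := by
    push_cast at h5
    exact (mul_eq_zero.1 h5).resolve_right h2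
  exact ⟨y, by rw [hxy, h6, zero_smul, zero_add]⟩

/-- The last derived subgroup with nonscalar image. -/
theorem exists_N (hirr : Irr ρ) (hsol : Group.IsSolvable ρ.range) :
    ∃ N : Subgroup G, N.Normal ∧ (∃ x ∈ N, ∀ c : F, (ρ x : M2 F) ≠ c • 1) ∧
      ∀ x ∈ N, ∀ y ∈ N, ∃ c : F, (ρ x : M2 F) * (ρ y : M2 F) = c • ((ρ y : M2 F) * (ρ x : M2 F)) := by
  classical
  have hex : ∃ n, ∀ x ∈ derivedSeries G n, ∃ c : F, (ρ x : M2 F) = c • 1 := by
    obtain ⟨n, hn⟩ := hsol
    refine ⟨n, fun x hx => ⟨1, ?_⟩⟩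
    have h1 : ρ.rangeRestrict x ∈ derivedSeries ρ.range n := by
      rw [← map_derivedSeries_eq ρ.rangeRestrict_surjective n]
      exact ⟨x, hx, rfl⟩
    rw [hn, Subgroup.mem_bot] at h1
    have h3 : ρ x = 1 := congrArg Subtype.val h1
    rw [h3, one_smul, Units.val_one]
  have hmin := Nat.find_spec hex
  have hlt := fun m (hm : m < Nat.find hex) => Nat.find_min hex hm
  set n := Nat.find hex with hn
  have hn0 : n ≠ 0 := by
    intro h0
    rw [h0] at hmin
    obtain ⟨g, hg⟩ := hirr (Pi.single 0 1) (by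
      intro h
      have := congrFun h 0
      simp at this)
    obtain ⟨c, hc⟩ := hmin g (by rw [derivedSeries_zero]; trivial)
    apply hg c
    rw [hc, Matrix.smul_mulVec, Matrix.one_mulVec]
  obtain ⟨m, hm⟩ := Nat.exists_eq_succ_of_ne_zero hn0
  refine ⟨derivedSeries G m, inferInstance, ?_, ?_⟩
  · have h1 := hlt m (by omega)
    push Not at h1
    exact h1
  · intro x hx y hy
    have h1 : ⁅x, y⁆ ∈ derivedSeries G n := by
      rw [hm, Nat.succ_eq_add_one, derivedSeries_succ]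
      exact Subgroup.commutator_mem_commutator hx hy
    obtain ⟨c, hc⟩ := hmin _ h1
    refine ⟨c, ?_⟩
    have h3 : ρ x * ρ y = ρ ⁅x, y⁆ * (ρ y * ρ x) := by
      rw [← map_mul, ← map_mul, ← map_mul]
      congr 1
      rw [commutatorElement_def]
      group
    have h4 := congrArg Units.val h3
    rw [Units.val_mul, Units.val_mul, Units.val_mul, hc, smul_mul_assoc, one_mul] at h4
    exact h4

theorem solv_main [IsAlgClosed F] (h2 : (2 : F) ≠ 0) (hirr : Irr ρ) (hsol : Group.IsSolvable ρ.range) :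
    Mono ρ ∨ ∃ σ : G →* Equiv.Perm (Fin 4),
      (∀ g, σ g = 1 ↔ ∃ c : F, (ρ g : M2 F) = c • 1) ∧
      (Nat.card σ.range = 12 ∨ Nat.card σ.range = 24) := by
  obtain ⟨N, hN, ⟨x0, hx0, hns⟩, hc⟩ := exists_N ρ hirr hsol
  by_cases hcomm : ∀ x ∈ N, ∀ y ∈ N, (ρ x : M2 F) * (ρ y : M2 F) = (ρ y : M2 F) * (ρ x : M2 F)
  · exact Or.inl (mono_of_comm ρ h2 hirr N hN hcomm hx0 hns)
  -- elements of `N` commute up to sign
  have hpm : ∀ x ∈ N, ∀ y ∈ N, PM (ρ x : M2 F) (ρ y : M2 F) := by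
    intro x hx y hy
    obtain ⟨c, hc⟩ := hc x hx y hy
    have h1 := congrArg Matrix.det hc
    rw [Matrix.det_smul, Matrix.det_mul, Matrix.det_mul, Fintype.card_fin] at h1
    have h3 : (ρ x : M2 F).det * (ρ y : M2 F).det ≠ 0 := by
      have e1 : IsUnit (ρ x : M2 F).det := (Matrix.isUnit_iff_isUnit_det _).1 (ρ x).isUnit
      have e2 : IsUnit (ρ y : M2 F).det := (Matrix.isUnit_iff_isUnit_det _).1 (ρ y).isUnit
      exact mul_ne_zero e1.ne_zero e2.ne_zero
    have h4 : c * c = 1 := by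
      apply mul_right_cancel₀ h3
      linear_combination -h1
    rcases mul_self_eq_one_iff.1 h4 with h6 | h6
    · left
      rw [hc, h6, one_smul]
    · right
      rw [hc, h6, neg_smul, one_smul]
  push Not at hcomm
  obtain ⟨a, ha, b, hb, hab⟩ := hcomm
  have hanti : (ρ a : M2 F) * (ρ b : M2 F) = -((ρ b : M2 F) * (ρ a : M2 F)) :=
    (hpm a ha b hb).resolve_left hab
  -- traces
  have htr : ∀ x y : G, (ρ x : M2 F) * (ρ y : M2 F) = -((ρ y : M2 F) * (ρ x : M2 F)) →
      (ρ x : M2 F) 1 1 = -(ρ x : M2 F) 0 0 := by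
    intro x y h
    rw [← trace_zero_iff]
    have h1 : cj ρ y (ρ x : M2 F) = -(ρ x : M2 F) := by
      rw [cj_eq_iff, neg_mul, h, neg_neg]
    have h3 := cj_trace ρ y (ρ x : M2 F)
    rw [h1, Matrix.trace_neg] at h3
    apply mul_left_cancel₀ h2
    linear_combination -h3
  have hta := htr a b hanti
  have htb := htr b a (by rw [hanti, neg_neg])
  have hunit : ∀ x : G, ∀ δ : F, (ρ x : M2 F) * (ρ x : M2 F) = δ • (1 : M2 F) → δ ≠ 0 := by
    rintro x δ h rfl
    rw [zero_smul] at h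
    have h1 : (ρ x : M2 F).det * (ρ x : M2 F).det = 0 := by
      rw [← Matrix.det_mul, h, Matrix.det_zero]
    have e1 : IsUnit (ρ x : M2 F).det := (Matrix.isUnit_iff_isUnit_det _).1 (ρ x).isUnit
    exact e1.ne_zero (mul_self_eq_zero.1 h1)
  have hsa := sq_form hta
  have hsb := sq_form htb
  set δ := (ρ a : M2 F) 0 0 ^ 2 + (ρ a : M2 F) 0 1 * (ρ a : M2 F) 1 0 with hδ
  set γ := (ρ b : M2 F) 0 0 ^ 2 + (ρ b : M2 F) 0 1 * (ρ b : M2 F) 1 0 with hγ
  obtain ⟨s, hs⟩ := IsAlgClosed.exists_eq_mul_self (-δ)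
  obtain ⟨t, ht⟩ := IsAlgClosed.exists_eq_mul_self (-γ)
  have hs0 : s ≠ 0 := by
    rintro rfl
    rw [mul_zero, neg_eq_zero] at hs
    exact hunit a δ hsa hs
  have ht0 : t ≠ 0 := by
    rintro rfl
    rw [mul_zero, neg_eq_zero] at ht
    exact hunit b γ hsb ht
  set q0 : M2 F := s⁻¹ • (ρ a : M2 F) with hq0
  set q1 : M2 F := t⁻¹ • (ρ b : M2 F) with hq1
  have e00 : q0 * q0 = -1 := by
    rw [hq0, smul_mul_smul_comm, hsa, smul_smul]
    have : s⁻¹ * s⁻¹ * δ = -1 := by
      have : δ = -(s * s) := by rw [← hs, neg_neg]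
      rw [this]
      field_simp
    rw [this, neg_smul, one_smul]
  have e11 : q1 * q1 = -1 := by
    rw [hq1, smul_mul_smul_comm, hsb, smul_smul]
    have : t⁻¹ * t⁻¹ * γ = -1 := by
      have : γ = -(t * t) := by rw [← ht, neg_neg]
      rw [this]
      field_simp
    rw [this, neg_smul, one_smul]
  have e01 : q0 * q1 = -(q1 * q0) := by
    rw [hq0, hq1, smul_mul_smul_comm, smul_mul_smul_comm, hanti, smul_neg, mul_comm s⁻¹]
  have e10 : q1 * q0 = -(q0 * q1) := by rw [e01, neg_neg]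
  have hq : QT (![q0, q1, q0 * q1] : Fin 3 → M2 F) := by
    refine ⟨?_, ?_, rfl⟩
    · intro n
      fin_cases n
      · exact e00
      · exact e11
      · change q0 * q1 * (q0 * q1) = -1
        rw [mul_assoc, ← mul_assoc q1, e10, neg_mul, mul_neg, mul_assoc q0 q1 q1, e11, mul_neg,
          mul_one, mul_neg, neg_neg, e00]
    · intro m n hmn
      fin_cases m <;> fin_cases n
      · exact absurd rfl hmn
      · exact e01
      · change q0 * (q0 * q1) = -(q0 * q1 * q0)
        rw [mul_assoc q0 q1 q0, e10, mul_neg, neg_neg]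
      · exact e10
      · exact absurd rfl hmn
      · change q1 * (q0 * q1) = -(q0 * q1 * q1)
        rw [← mul_assoc, e10, neg_mul]
      · change q0 * q1 * q0 = -(q0 * (q0 * q1))
        rw [mul_assoc q0 q1 q0, e10, mul_neg]
      · change q0 * q1 * q1 = -(q1 * (q0 * q1))
        rw [← mul_assoc, e10, neg_mul, neg_neg]
      · exact absurd rfl hmn
  have ha' : (ρ a : M2 F) = s • q0 := by rw [hq0, smul_smul, mul_inv_cancel₀ hs0, one_smul]
  have hb' : (ρ b : M2 F) = t • q1 := by rw [hq1, smul_smul, mul_inv_cancel₀ ht0, one_smul]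
  -- conjugates of the units
  have hcon : ∀ (g x : G), x ∈ N → ∀ y ∈ N, PM (cj ρ g (ρ x : M2 F)) (ρ y : M2 F) := by
    intro g x hx y hy
    rw [cj_rho]
    exact hpm _ (hN.conj_mem x hx g) _ hy
  have hp : ∀ g : G, PM (cj ρ g q0) q0 ∧ PM (cj ρ g q0) q1 ∧ PM (cj ρ g q1) q0 ∧
      PM (cj ρ g q1) q1 := by
    intro g
    simp only [hq0, hq1, cj_smul]
    exact ⟨((((hcon g a ha a ha).smul s⁻¹).symm).smul s⁻¹).symm,
      ((((hcon g a ha b hb).smul s⁻¹).symm).smul t⁻¹).symm,
      ((((hcon g b hb a ha).smul t⁻¹).symm).smul s⁻¹).symm,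
      ((((hcon g b hb b hb).smul t⁻¹).symm).smul t⁻¹).symm⟩
  refine main_quat ρ h2 hirr hq (fun g n => ?_) ha' hb'
  have hXX : cj ρ g ((![q0, q1, q0 * q1] : Fin 3 → M2 F) n) *
      cj ρ g ((![q0, q1, q0 * q1] : Fin 3 → M2 F) n) = -1 := by
    rw [← cj_mul, hq.sq, cj_neg, cj_id]
  have htX : (cj ρ g ((![q0, q1, q0 * q1] : Fin 3 → M2 F) n)) 1 1 =
      -(cj ρ g ((![q0, q1, q0 * q1] : Fin 3 → M2 F) n)) 0 0 := by
    rw [← trace_zero_iff, cj_trace, trace_zero_iff]
    exact hq.tr h2 n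
  obtain ⟨p00, p01, p10, p11⟩ := hp g
  refine classify hq h2 hXX htX ?_ ?_
  · fin_cases n
    · exact p00
    · exact p10
    · change PM (cj ρ g (q0 * q1)) q0
      rw [cj_mul]
      exact p00.mul p10
  · fin_cases n
    · exact p01
    · exact p11
    · change PM (cj ρ g (q0 * q1)) q1
      rw [cj_mul]
      exact p01.mul p11

/-- The image in `PGL₂`. -/
def projImage (r : G →* GL (Fin 2) F) : Subgroup (Matrix.ProjGenLinGroup (Fin 2) F) :=
  (Matrix.ProjGenLinGroup.mk.comp r).range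

theorem mem_ker_proj (r : G →* GL (Fin 2) F) (g : G) :
    g ∈ (Matrix.ProjGenLinGroup.mk.comp r).ker ↔ ∃ c : F, (r g : M2 F) = c • 1 := by
  rw [MonoidHom.mem_ker, MonoidHom.comp_apply, Matrix.ProjGenLinGroup.mk_eq_one,
    Matrix.GeneralLinearGroup.mem_center_iff_val_mem_range_scalar]
  constructor
  · rintro ⟨c, hc⟩
    refine ⟨c, ?_⟩
    rw [← hc, Matrix.scalar_apply, Matrix.smul_one_eq_diagonal]
  · rintro ⟨c, hc⟩
    refine ⟨c, ?_⟩
    rw [hc, Matrix.scalar_apply, Matrix.smul_one_eq_diagonal]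

/-- An irreducible representation with solvable image is monomial, or its projective image is
isomorphic to `A₄` or `S₄`. -/
theorem solv_iso [IsAlgClosed F] (h2 : (2 : F) ≠ 0) (hirr : Irr ρ) (hsol : Group.IsSolvable ρ.range) :
    Mono ρ ∨ Nonempty (projImage ρ ≃* alternatingGroup (Fin 4)) ∨
      Nonempty (projImage ρ ≃* Equiv.Perm (Fin 4)) := by
  rcases solv_main ρ h2 hirr hsol with h | ⟨σ, hσ, hcard⟩
  · exact Or.inl h
  right
  have hker : (Matrix.ProjGenLinGroup.mk.comp ρ).ker = σ.ker := by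
    ext g
    rw [mem_ker_proj, MonoidHom.mem_ker, hσ]
  have e : projImage ρ ≃* σ.range :=
    (QuotientGroup.quotientKerEquivRange (Matrix.ProjGenLinGroup.mk.comp ρ)).symm.trans
      ((QuotientGroup.quotientMulEquivOfEq hker).trans (QuotientGroup.quotientKerEquivRange σ))
  rcases hcard with h | h
  · left
    have hi : σ.range.index = 2 := by
      have h1 := σ.range.card_mul_index
      rw [h, Nat.card_perm, Nat.card_fin] at h1
      have : Nat.factorial 4 = 24 := by decide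
      omega
    have h3 := Equiv.Perm.eq_alternatingGroup_of_index_eq_two hi
    exact ⟨e.trans (MulEquiv.subgroupCongr h3)⟩
  · right
    have h3 : σ.range = ⊤ := by
      apply Subgroup.eq_top_of_card_eq
      rw [h, Nat.card_perm, Nat.card_fin]
      decide
    exact ⟨e.trans ((MulEquiv.subgroupCongr h3).trans Subgroup.topEquiv)⟩

end Vale.Agent.P022.Solv
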