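import Vale.Agent.P022.H121.Solv

/-!
# Absolutely irreducible representations with solvable image
-/

open Matrix

noncomputable section

namespace Vale.Agent.P022

open Solv

theorem exists_index_two {G : Type} [Group G] {E : Type} [Field E] [CharZero E]
    (r : G →* GL (Fin 2) E)
    (hirr : ∀ (F : Type) [Field F] (i : E →+* F) (w : Fin 2 → F), w ≠ 0 →
      ∃ σ : G, ∀ c : F, ((r σ : Matrix (Fin 2) (Fin 2) E).map i).mulVec w ≠ c • w) (hsol : Group.IsSolvable r.range)
    (hA : ¬ Nonempty ((Matrix.ProjGenLinGroup.mk.comp r).range ≃* alternatingGroup (Fin 4)))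
    (hS : ¬ Nonempty ((Matrix.ProjGenLinGroup.mk.comp r).range ≃* Equiv.Perm (Fin 4))) :
    ∃ H : Subgroup G, H.index = 2 ∧ ∀ a ∈ H, ∀ b ∈ H, r a * r b = r b * r a := by
  set i : E →+* AlgebraicClosure E := algebraMap E (AlgebraicClosure E) with hi
  have : CharZero (AlgebraicClosure E) := charZero_of_injective_algebraMap i.injective
  set ρ : G →* GL (Fin 2) (AlgebraicClosure E) := (GeneralLinearGroup.map i).comp r with hρ
  have hval : ∀ g, (ρ g : M2 (AlgebraicClosure E)) = (r g : M2 E).map i := fun g => rfl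
  have hirr' : Irr ρ := by
    intro x hx
    obtain ⟨g, hg⟩ := hirr (AlgebraicClosure E) i x hx
    exact ⟨g, hg⟩
  have hsol' : Group.IsSolvable ρ.range := by
    have h : ρ.range = r.range.map (GeneralLinearGroup.map i) := by
      rw [hρ, MonoidHom.range_comp]
    rw [h]
    exact Group.isSolvable_of_surjective
      ((GeneralLinearGroup.map i).subgroupMap_surjective r.range)
  have hscal : ∀ g, (∃ c : AlgebraicClosure E, (ρ g : M2 (AlgebraicClosure E)) = c • 1) ↔
      ∃ c : E, (r g : M2 E) = c • 1 := by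
    intro g
    constructor
    · rintro ⟨c, hc⟩
      refine ⟨(r g : M2 E) 0 0, ?_⟩
      rw [hval] at hc
      have e00 := congrFun (congrFun hc 0) 0
      have e01 := congrFun (congrFun hc 0) 1
      have e10 := congrFun (congrFun hc 1) 0
      have e11 := congrFun (congrFun hc 1) 1
      simp only [Matrix.map_apply, Matrix.smul_apply, smul_eq_mul, Matrix.one_apply_eq, mul_one,
        Matrix.one_apply_ne (show (0 : Fin 2) ≠ 1 by decide),
        Matrix.one_apply_ne (show (1 : Fin 2) ≠ 0 by decide), mul_zero] at e00 e01 e10 e11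
      have f01 : (r g : M2 E) 0 1 = 0 := i.injective (by rw [e01, map_zero])
      have f10 : (r g : M2 E) 1 0 = 0 := i.injective (by rw [e10, map_zero])
      have f11 : (r g : M2 E) 1 1 = (r g : M2 E) 0 0 := i.injective (by rw [e11, e00])
      ext j k
      fin_cases j <;> fin_cases k <;> simp [f01, f10, f11]
    · rintro ⟨c, hc⟩
      refine ⟨i c, ?_⟩
      rw [hval, hc]
      ext j k
      fin_cases j <;> fin_cases k <;> simp
  have hker : (Matrix.ProjGenLinGroup.mk.comp r).ker = (Matrix.ProjGenLinGroup.mk.comp ρ).ker := by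
    ext g
    rw [mem_ker_proj, mem_ker_proj, hscal]
  have e : (Matrix.ProjGenLinGroup.mk.comp r).range ≃* (Matrix.ProjGenLinGroup.mk.comp ρ).range :=
    (QuotientGroup.quotientKerEquivRange (Matrix.ProjGenLinGroup.mk.comp r)).symm.trans
      ((QuotientGroup.quotientMulEquivOfEq hker).trans
        (QuotientGroup.quotientKerEquivRange (Matrix.ProjGenLinGroup.mk.comp ρ)))
  rcases solv_iso ρ two_ne_zero hirr' hsol' with ⟨H, hH, hc⟩ | ⟨⟨e'⟩⟩ | ⟨⟨e'⟩⟩
  · refine ⟨H, hH, fun a ha b hb => ?_⟩
    have h := hc a ha b hb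
    have hinj : Function.Injective (GeneralLinearGroup.map i : GL (Fin 2) E →* _) := by
      intro x y hxy
      apply Units.ext
      ext j k
      have := congrArg (fun z : GL (Fin 2) (AlgebraicClosure E) => (z : M2 (AlgebraicClosure E)) j k) hxy
      exact i.injective this
    apply hinj
    rw [map_mul, map_mul]
    exact h
  · exact absurd ⟨e.trans e'⟩ hA
  · exact absurd ⟨e.trans e'⟩ hS

end Vale.Agent.P022
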